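import Vale.Agent.P313.H463.MW.SStmt

/-!
Bridge: comparison of walks of two automata, and of products of matrices.
-/

namespace Vale.Agent.P313.MW

open Finset

theorem hst_lt {Q : ℕ} {al be : ℕ → ℕ} {C t c x : ℕ} (hQ : 0 < Q) (hx : x < Q) :
    hst Q al be C t c x < Q := by
  unfold hst
  split_ifs
  · exact Nat.mod_lt _ hQ
  · exact hx

theorem lab_lt' {Q : ℕ} {al be : ℕ → ℕ} {C t : ℕ} (hQ : 0 < Q) :
    ∀ r x, x < Q → lab Q al be C t r x < Q
  | 0, _, hx => hx
  | r + 1, _, hx => lab_lt' hQ r _ (hst_lt hQ hx)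

/-- The automaton `Tc` with the absorbing state `N` agrees with `T` outside of this state. -/
structure Sand (N Q n : ℕ) (Tc T : ℕ → ℕ → ℕ → ℕ) : Prop where
  abs : ∀ p x, Tc p N x = N
  le : ∀ p u x, Tc p u x ≤ N
  eq : ∀ p < n, ∀ u < N, ∀ x < Q, Tc p u x < N → T p u x = Tc p u x

theorem Sand.wlk_le {N Q n : ℕ} {Tc T : ℕ → ℕ → ℕ → ℕ} (H : Sand N Q n Tc T) {lb : ℕ → ℕ}
    {i u : ℕ} (hu : u ≤ N) : ∀ t, wlk Tc lb i u t ≤ N
  | 0 => hu
  | _ + 1 => H.le _ _ _

theorem Sand.walk {N Q n : ℕ} {Tc T : ℕ → ℕ → ℕ → ℕ} (H : Sand N Q n Tc T) {lb : ℕ → ℕ}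
    (hlb : ∀ t, lb t < Q) {i u : ℕ} (hu : u ≤ N) :
    ∀ t, i + t ≤ n → wlk Tc lb i u t < N → wlk T lb i u t = wlk Tc lb i u t
  | 0, _, _ => rfl
  | t + 1, ht, h => by
    have h1 : wlk Tc lb i u (t + 1) = Tc (i + t) (wlk Tc lb i u t) (lb t) := rfl
    have h2 : wlk T lb i u (t + 1) = T (i + t) (wlk T lb i u t) (lb t) := rfl
    have h3 : wlk Tc lb i u t < N := by
      rcases lt_or_eq_of_le (H.wlk_le hu t (lb := lb) (i := i)) with h4 | h4
      · exact h4
      · rw [h1, h4, H.abs] at h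
        exact absurd h (lt_irrefl _)
    rw [h2, H.walk hlb hu t (by omega) h3, h1]
    exact H.eq _ (by omega) _ h3 _ (hlb t) (by rw [← h1]; exact h)

theorem Sand.cw_ge {N Q n r : ℕ} {Tc T : ℕ → ℕ → ℕ → ℕ} (H : Sand N Q n Tc T) (hQ : 0 < Q)
    {al be : ℕ → ℕ} {C i t u v : ℕ} (hit : i + t ≤ n) (hu : u ≤ N) (hv : v < N) :
    cw Q r al be Tc C i t u v ≤ cw Q r al be T C i t u v := by
  unfold cw
  apply card_le_card
  intro x hx
  rw [mem_filter] at hx ⊢
  have h1 := mem_range.1 hx.1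
  refine ⟨hx.1, ?_⟩
  rw [H.walk (fun t => lab_lt' hQ _ _ h1) hu t hit (by rw [hx.2]; exact hv), hx.2]

theorem Sand.cw_le {N Q n r : ℕ} {Tc T : ℕ → ℕ → ℕ → ℕ} (H : Sand N Q n Tc T) (hQ : 0 < Q)
    {al be : ℕ → ℕ} {C i t u v : ℕ} (hit : i + t ≤ n) (hu : u ≤ N) :
    cw Q r al be T C i t u v ≤ cw Q r al be Tc C i t u v + cw Q r al be Tc C i t u N := by
  unfold cw
  refine le_trans (card_le_card ?_) (card_union_le _ _)
  intro x hx
  rw [mem_filter] at hx
  rw [mem_union, mem_filter, mem_filter]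
  have h1 := mem_range.1 hx.1
  have hl : ∀ t, (fun t => lab Q al be C t r x) t < Q := fun t => lab_lt' hQ _ _ h1
  rcases lt_or_eq_of_le (H.wlk_le hu t (lb := fun t => lab Q al be C t r x) (i := i)) with h4 | h4
  · left
    refine ⟨hx.1, ?_⟩
    rw [← H.walk hl hu t hit h4, hx.2]
  · right
    exact ⟨hx.1, h4⟩

/-! ### Products -/

theorem prq_nonneg {N : ℕ} {m : ℕ → ℕ → ℕ → ℚ} {i : ℕ} :
    ∀ t, (∀ p, i ≤ p → p < i + t → ∀ u < N, ∀ v < N, 0 ≤ m p u v) → ∀ u < N, ∀ v < N,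
      0 ≤ prq N m i t u v
  | 0, _, u, _, v, _ => by
    show (0 : ℚ) ≤ if u = v then 1 else 0
    split_ifs <;> norm_num
  | t + 1, hm, u, hu, v, hv => by
    show (0 : ℚ) ≤ ∑ s ∈ range N, prq N m i t u s * m (i + t) s v
    refine sum_nonneg fun s hs => mul_nonneg ?_ ?_
    · exact prq_nonneg t (fun p h1 h2 => hm p h1 (by omega)) u hu s (mem_range.1 hs)
    · exact hm _ (by omega) (by omega) s (mem_range.1 hs) v hv

theorem prq_row_le {N : ℕ} {m : ℕ → ℕ → ℕ → ℚ} {i : ℕ} :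
    ∀ t, (∀ p, i ≤ p → p < i + t → ∀ u < N, ∀ v < N, 0 ≤ m p u v) →
      (∀ p, i ≤ p → p < i + t → ∀ u < N, ∑ v ∈ range N, m p u v ≤ 1) → ∀ u < N,
      ∑ v ∈ range N, prq N m i t u v ≤ 1
  | 0, _, _, u, hu => by
    show (∑ v ∈ range N, (if u = v then (1 : ℚ) else 0)) ≤ 1
    rw [sum_ite_eq, if_pos (mem_range.2 hu)]
  | t + 1, hm, hr, u, hu => by
    show (∑ v ∈ range N, ∑ s ∈ range N, prq N m i t u s * m (i + t) s v) ≤ 1
    rw [sum_comm]
    have h1 := prq_row_le t (fun p h1 h2 => hm p h1 (by omega)) (fun p h1 h2 => hr p h1 (by omega))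
      u hu
    refine le_trans (sum_le_sum fun s hs => ?_) h1
    rw [← mul_sum]
    have h2 := prq_nonneg t (fun p h1 h2 => hm p h1 (by omega)) u hu s (mem_range.1 hs)
    have h3 := hr (i + t) (by omega) (by omega) s (mem_range.1 hs)
    nlinarith

theorem prq_row_eq {N : ℕ} {m : ℕ → ℕ → ℕ → ℚ} {i : ℕ} :
    ∀ t, (∀ p, i ≤ p → p < i + t → ∀ u < N, ∑ v ∈ range N, m p u v = 1) → ∀ u < N,
      ∑ v ∈ range N, prq N m i t u v = 1
  | 0, _, u, hu => by
    show (∑ v ∈ range N, (if u = v then (1 : ℚ) else 0)) = 1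
    rw [sum_ite_eq, if_pos (mem_range.2 hu)]
  | t + 1, hr, u, hu => by
    show (∑ v ∈ range N, ∑ s ∈ range N, prq N m i t u s * m (i + t) s v) = 1
    rw [sum_comm]
    have h1 := prq_row_eq t (fun p h1 h2 => hr p h1 (by omega)) u hu
    refine Eq.trans (sum_congr rfl fun s hs => ?_) h1
    rw [← mul_sum, hr (i + t) (by omega) (by omega) s (mem_range.1 hs), mul_one]

/-- Distance of products with an additional absorbing state in the first factor. -/
theorem prq_near {N : ℕ} {A B : ℕ → ℕ → ℕ → ℚ} {i : ℕ} {κ : ℚ} :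
    ∀ t, (∀ p, i ≤ p → p < i + t → ∀ u ≤ N, ∀ v ≤ N, 0 ≤ A p u v) →
      (∀ p, i ≤ p → p < i + t → ∀ u < N, ∑ v ∈ range (N + 1), A p u v ≤ 1) →
      (∀ p, i ≤ p → p < i + t → ∀ v < N, A p N v = 0) →
      (∀ p, i ≤ p → p < i + t → ∀ u < N, ∀ v < N, 0 ≤ B p u v) →
      (∀ p, i ≤ p → p < i + t → ∀ u < N, ∑ v ∈ range N, B p u v ≤ 1) →
      (∀ p, i ≤ p → p < i + t → ∀ u < N, ∑ v ∈ range N, |A p u v - B p u v| ≤ κ) →
      ∀ u < N, ∑ v ∈ range N, |prq (N + 1) A i t u v - prq N B i t u v| ≤ t * κ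
  | 0, _, _, _, _, _, _, u, _ => by
    refine le_of_eq ?_
    rw [Nat.cast_zero, zero_mul]
    refine sum_eq_zero fun v _ => ?_
    show |(if u = v then (1 : ℚ) else 0) - (if u = v then (1 : ℚ) else 0)| = 0
    rw [sub_self, abs_zero]
  | t + 1, hA, hA1, hA0, hB, hB1, hAB, u, hu => by
    have ih := prq_near t (fun p h1 h2 => hA p h1 (by omega)) (fun p h1 h2 => hA1 p h1 (by omega))
      (fun p h1 h2 => hA0 p h1 (by omega)) (fun p h1 h2 => hB p h1 (by omega))
      (fun p h1 h2 => hB1 p h1 (by omega)) (fun p h1 h2 => hAB p h1 (by omega)) u hu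
    have hb := prq_row_le t (fun p h1 h2 => hB p h1 (by omega)) (fun p h1 h2 => hB1 p h1 (by omega))
      u hu
    have hb0 := prq_nonneg t (fun p h1 h2 => hB p h1 (by omega)) u hu
    have hκ : 0 ≤ κ := le_trans (sum_nonneg fun _ _ => abs_nonneg _) (hAB i le_rfl (by omega) u hu)
    have key : ∀ v ∈ range N, |prq (N + 1) A i (t + 1) u v - prq N B i (t + 1) u v| ≤
        ∑ s ∈ range N, (|prq (N + 1) A i t u s - prq N B i t u s| * A (i + t) s v +
          prq N B i t u s * |A (i + t) s v - B (i + t) s v|) := by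
      intro v hv
      have hv := mem_range.1 hv
      have e1 : prq (N + 1) A i (t + 1) u v = ∑ s ∈ range N, prq (N + 1) A i t u s * A (i + t) s v := by
        show (∑ s ∈ range (N + 1), prq (N + 1) A i t u s * A (i + t) s v) = _
        rw [sum_range_succ, hA0 (i + t) (by omega) (by omega) v hv, mul_zero, add_zero]
      have e2 : prq N B i (t + 1) u v = ∑ s ∈ range N, prq N B i t u s * B (i + t) s v := rfl
      rw [e1, e2, ← sum_sub_distrib]
      refine le_trans (abs_sum_le_sum_abs _ _) (sum_le_sum fun s hs => ?_)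
      have hs := mem_range.1 hs
      have h1 := hA (i + t) (by omega) (by omega) s (by omega) v (by omega)
      have h2 := hb0 s hs
      calc |prq (N + 1) A i t u s * A (i + t) s v - prq N B i t u s * B (i + t) s v|
          = |(prq (N + 1) A i t u s - prq N B i t u s) * A (i + t) s v +
              prq N B i t u s * (A (i + t) s v - B (i + t) s v)| := by ring_nf
        _ ≤ |(prq (N + 1) A i t u s - prq N B i t u s) * A (i + t) s v| +
              |prq N B i t u s * (A (i + t) s v - B (i + t) s v)| := abs_add_le _ _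
        _ = _ := by rw [abs_mul, abs_mul, abs_of_nonneg h1, abs_of_nonneg h2]
    refine le_trans (sum_le_sum key) ?_
    rw [sum_comm]
    have key2 : ∀ s ∈ range N, ∑ v ∈ range N,
        (|prq (N + 1) A i t u s - prq N B i t u s| * A (i + t) s v +
          prq N B i t u s * |A (i + t) s v - B (i + t) s v|) ≤
        |prq (N + 1) A i t u s - prq N B i t u s| + prq N B i t u s * κ := by
      intro s hs
      have hs := mem_range.1 hs
      rw [sum_add_distrib, ← mul_sum, ← mul_sum]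
      have h1 : ∑ v ∈ range N, A (i + t) s v ≤ 1 := by
        have h3 := hA1 (i + t) (by omega) (by omega) s hs
        rw [sum_range_succ] at h3
        have h4 := hA (i + t) (by omega) (by omega) s (by omega) N le_rfl
        linarith
      have h2 := hAB (i + t) (by omega) (by omega) s hs
      have h3 := hb0 s hs
      have h4 := abs_nonneg (prq (N + 1) A i t u s - prq N B i t u s)
      nlinarith
    refine le_trans (sum_le_sum key2) ?_
    rw [sum_add_distrib, ← sum_mul]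
    push_cast
    nlinarith

/-- The mass of the absorbing state. -/
theorem prq_mass {N : ℕ} {A : ℕ → ℕ → ℕ → ℚ} {i : ℕ} {μ : ℚ} :
    ∀ t, (∀ p, i ≤ p → p < i + t → ∀ u ≤ N, ∀ v ≤ N, 0 ≤ A p u v) →
      (∀ p, i ≤ p → p < i + t → ∀ u ≤ N, ∑ v ∈ range (N + 1), A p u v ≤ 1) →
      (∀ p, i ≤ p → p < i + t → ∀ u < N, A p u N ≤ μ) → 0 ≤ μ →
      ∀ u < N, prq (N + 1) A i t u N ≤ t * μ
  | 0, _, _, _, _, u, hu => by
    show (if u = N then (1 : ℚ) else 0) ≤ _
    rw [if_neg (by omega)]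
    simp
  | t + 1, hA, hA1, hAμ, hμ, u, hu => by
    have ih := prq_mass t (fun p h1 h2 => hA p h1 (by omega)) (fun p h1 h2 => hA1 p h1 (by omega))
      (fun p h1 h2 => hAμ p h1 (by omega)) hμ u hu
    have h0 := prq_nonneg (N := N + 1) t (fun p h1 h2 u hu v hv => hA p h1 (by omega) u (by omega) v
      (by omega)) u (by omega)
    have h1 := prq_row_le (N := N + 1) t (fun p h1 h2 u hu v hv => hA p h1 (by omega) u (by omega) v
      (by omega)) (fun p h1 h2 u hu => hA1 p h1 (by omega) u (by omega)) u (by omega)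
    show (∑ s ∈ range (N + 1), prq (N + 1) A i t u s * A (i + t) s N) ≤ _
    have h2 : ∑ s ∈ range N, prq (N + 1) A i t u s * A (i + t) s N ≤
        ∑ s ∈ range N, prq (N + 1) A i t u s * μ := by
      refine sum_le_sum fun s hs => ?_
      have hs := mem_range.1 hs
      exact mul_le_mul_of_nonneg_left (hAμ _ (by omega) (by omega) s hs) (h0 s (by omega))
    rw [← sum_mul] at h2
    rw [sum_range_succ] at h1 ⊢
    have h3 := h0 N (by omega)
    have h4 : A (i + t) N N ≤ 1 := by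
      have h5 := hA1 (i + t) (by omega) (by omega) N le_rfl
      refine le_trans ?_ h5
      exact single_le_sum (f := fun v => A (i + t) N v)
        (fun v hv => hA (i + t) (by omega) (by omega) N le_rfl v (by
          have := mem_range.1 hv; omega)) (mem_range.2 (Nat.lt_succ_self N))
    have h5 : ∑ s ∈ range N, prq (N + 1) A i t u s ≤ 1 := by linarith
    push_cast
    nlinarith

/-! ### The matrix of an automaton -/

theorem one_nonneg {Q : ℕ} {T : ℕ → ℕ → ℕ → ℕ} {p u v : ℕ} : 0 ≤ one Q T p u v := by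
  unfold one
  positivity

theorem one_sum {N Q : ℕ} {T : ℕ → ℕ → ℕ → ℕ} (hQ : 0 < Q) {p u : ℕ} (hT : ∀ x, T p u x ≤ N) :
    ∑ v ∈ range (N + 1), one Q T p u v = 1 := by
  unfold one
  rw [← sum_div, ← Nat.cast_sum]
  have h1 : ∑ v ∈ range (N + 1), #{x ∈ range Q | T p u x = v} = Q := by
    rw [← card_eq_sum_card_fiberwise (s := range Q) (f := fun x => T p u x) (t := range (N + 1)),
      card_range]
    intro x _
    rw [coe_range, Set.mem_Iio]
    exact Nat.lt_succ_of_le (hT x)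
  rw [h1]
  have : (Q : ℚ) ≠ 0 := by positivity
  exact div_self this

end Vale.Agent.P313.MW
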