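import Vale.Agent.P313.H463.MW.KStmt
import Vale.Agent.P313.H157.Br1

/-!
Bridge: the cells.
-/

namespace Vale.Agent.P313.MW

open Finset

theorem cum_mono (f : ℕ → ℕ) {a b : ℕ} (h : a ≤ b) : cum f a ≤ cum f b :=
  sum_le_sum_of_subset (range_subset_range.2 h)

theorem cum_succ' (f : ℕ → ℕ) (v : ℕ) : cum f (v + 1) = cum f v + f v := sum_range_succ _ _

/-- The number of the cell. -/
theorem cell_count {N : ℕ} {f : ℕ → ℕ} {v x : ℕ} (hv : v < N) (h1 : cum f v ≤ x)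
    (h2 : x < cum f (v + 1)) : #{w ∈ range N | cum f (w + 1) ≤ x} = v := by
  have h3 : {w ∈ range N | cum f (w + 1) ≤ x} = range v := by
    ext w
    rw [mem_filter, mem_range, mem_range]
    constructor
    · rintro ⟨_, h4⟩
      by_contra h5
      have h6 := cum_mono f (show v + 1 ≤ w + 1 by omega)
      omega
    · intro h4
      have h6 := cum_mono f (show w + 1 ≤ v by omega)
      omega
  rw [h3, card_range]

theorem cum_near {f g : ℕ → ℕ} {N : ℕ} (h : ∀ v < N, f v ≤ g v + 1 ∧ g v ≤ f v + 1) :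
    ∀ v ≤ N, cum f v ≤ cum g v + v ∧ cum g v ≤ cum f v + v
  | 0, _ => by simp [cum]
  | v + 1, hv => by
    have h1 := cum_near h v (by omega)
    have h2 := h v (by omega)
    rw [cum_succ', cum_succ']
    omega

/-- Cell lengths of the true matrices. -/
noncomputable def gc (Q : ℕ) (M : ℕ → ℕ → ℕ → ℚ) (p u w : ℕ) : ℕ := ⌊(Q : ℚ) * M p u w⌋₊

theorem autc_eq {N Q : ℕ} {M : ℕ → ℕ → ℕ → ℚ} {p u x v : ℕ} (hu : u < N) (hv : v < N)
    (h1 : cum (gc Q M p u) v + 2 * N ≤ x) (h2 : x + 2 * N < cum (gc Q M p u) (v + 1)) :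
    autc N Q M p u x = v := by
  have h3 : u < N ∧ ∃ v < N, cum (fun w => ⌊(Q : ℚ) * M p u w⌋₊) v + 2 * N ≤ x ∧
      x + 2 * N < cum (fun w => ⌊(Q : ℚ) * M p u w⌋₊) (v + 1) := ⟨hu, v, hv, h1, h2⟩
  unfold autc
  rw [if_pos h3]
  exact cell_count hv (le_trans (Nat.le_add_right _ _) h1) (lt_of_le_of_lt (Nat.le_add_right _ _) h2)

theorem autc_cases {N Q : ℕ} {M : ℕ → ℕ → ℕ → ℚ} {p u x : ℕ} (h : autc N Q M p u x < N) :
    u < N ∧ cum (gc Q M p u) (autc N Q M p u x) + 2 * N ≤ x ∧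
      x + 2 * N < cum (gc Q M p u) (autc N Q M p u x + 1) := by
  by_cases h3 : u < N ∧ ∃ v < N, cum (fun w => ⌊(Q : ℚ) * M p u w⌋₊) v + 2 * N ≤ x ∧
      x + 2 * N < cum (fun w => ⌊(Q : ℚ) * M p u w⌋₊) (v + 1)
  · obtain ⟨hu, v, hv, h1, h2⟩ := h3
    rw [autc_eq hu hv h1 h2]
    exact ⟨hu, h1, h2⟩
  · exfalso
    unfold autc at h
    rw [if_neg h3] at h
    exact lt_irrefl _ h

theorem autc_le {N Q : ℕ} {M : ℕ → ℕ → ℕ → ℚ} (p u x : ℕ) : autc N Q M p u x ≤ N := by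
  unfold autc
  split_ifs
  · exact le_trans (card_filter_le _ _) (le_of_eq (card_range N))
  · exact le_rfl

theorem autc_abs {N Q : ℕ} {M : ℕ → ℕ → ℕ → ℚ} (p x : ℕ) : autc N Q M p N x = N := by
  unfold autc
  rw [if_neg]
  rintro ⟨h, _⟩
  exact lt_irrefl _ h

theorem aut_eq {N : ℕ} {f : ℕ → ℕ → ℕ → ℕ} {p u x v : ℕ} (hu : u < N) (hv : v < N)
    (h1 : cum (f p u) v ≤ x) (h2 : x < cum (f p u) (v + 1)) : aut N f p u x = v := by
  unfold aut
  rw [if_pos hu]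
  exact cell_count hv h1 h2

theorem sand {N Q n : ℕ} {M : ℕ → ℕ → ℕ → ℚ} {f : ℕ → ℕ → ℕ → ℕ}
    (h : ∀ p < n, ∀ u < N, ∀ v < N, f p u v ≤ gc Q M p u v + 1 ∧ gc Q M p u v ≤ f p u v + 1) :
    Sand N Q n (autc N Q M) (aut N f) where
  abs := autc_abs
  le := autc_le
  eq := by
    intro p hp u hu x _ h1
    obtain ⟨_, h2, h3⟩ := autc_cases h1
    have h4 := cum_near (h p hp u hu)
    have h5 := h4 (autc N Q M p u x) h1.le
    have h6 := h4 (autc N Q M p u x + 1) h1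
    exact aut_eq hu h1 (by omega) (by omega)

/-! ### The matrix of the automaton of the safe cells -/

theorem gc_le {Q : ℕ} {M : ℕ → ℕ → ℕ → ℚ} {p u v : ℕ} (h : 0 ≤ M p u v) :
    (gc Q M p u v : ℚ) ≤ Q * M p u v :=
  Nat.floor_le (by positivity)

theorem lt_gc {Q : ℕ} {M : ℕ → ℕ → ℕ → ℚ} {p u v : ℕ} :
    (Q : ℚ) * M p u v < gc Q M p u v + 1 := Nat.lt_floor_add_one _

theorem cum_gc_le {N Q : ℕ} {M : ℕ → ℕ → ℕ → ℚ} {p u : ℕ} (h0 : ∀ v < N, 0 ≤ M p u v)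
    (h1 : ∑ v ∈ range N, M p u v = 1) {v : ℕ} (hv : v ≤ N) : cum (gc Q M p u) v ≤ Q := by
  refine le_trans (cum_mono _ hv) ?_
  have h2 : ((cum (gc Q M p u) N : ℕ) : ℚ) ≤ Q := by
    unfold cum
    rw [Nat.cast_sum]
    calc ∑ w ∈ range N, (gc Q M p u w : ℚ) ≤ ∑ w ∈ range N, (Q : ℚ) * M p u w :=
          sum_le_sum fun w hw => gc_le (h0 w (mem_range.1 hw))
      _ = Q := by rw [← mul_sum, h1, mul_one]
  exact_mod_cast h2

theorem one_autc {N Q : ℕ} {M : ℕ → ℕ → ℕ → ℚ} {p u v : ℕ} (hu : u < N) (hv : v < N)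
    (h0 : ∀ v < N, 0 ≤ M p u v) (h1 : ∑ v ∈ range N, M p u v = 1) :
    one Q (autc N Q M) p u v = ((gc Q M p u v - 4 * N : ℕ) : ℚ) / Q := by
  unfold one
  have h3 : {x ∈ range Q | autc N Q M p u x = v} =
      Ico (cum (gc Q M p u) v + 2 * N) (cum (gc Q M p u) (v + 1) - 2 * N) := by
    ext x
    rw [mem_filter, mem_range, mem_Ico]
    constructor
    · rintro ⟨_, h4⟩
      have h5 : autc N Q M p u x < N := by rw [h4]; exact hv
      obtain ⟨_, h6, h7⟩ := autc_cases h5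
      rw [h4] at h6 h7
      omega
    · rintro ⟨h4, h5⟩
      have h6 := cum_gc_le (Q := Q) h0 h1 (show v + 1 ≤ N by omega)
      exact ⟨by omega, autc_eq hu hv h4 (by omega)⟩
  rw [h3, Nat.card_Ico]
  congr 2
  rw [cum_succ']
  omega

theorem one_near {N Q : ℕ} {M : ℕ → ℕ → ℕ → ℚ} {p u v : ℕ} (hQ : 0 < Q) (hu : u < N) (hv : v < N)
    (h0 : ∀ v < N, 0 ≤ M p u v) (h1 : ∑ v ∈ range N, M p u v = 1) :
    0 ≤ M p u v - one Q (autc N Q M) p u v ∧
      M p u v - one Q (autc N Q M) p u v ≤ (4 * N + 1) / Q := by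
  rw [one_autc hu hv h0 h1]
  have hQ' : (0 : ℚ) < Q := by exact_mod_cast hQ
  have h2 := gc_le (Q := Q) (h0 v hv)
  have h3 := lt_gc (Q := Q) (M := M) (p := p) (u := u) (v := v)
  have h4 : M p u v - ((gc Q M p u v - 4 * N : ℕ) : ℚ) / Q =
      (Q * M p u v - ((gc Q M p u v - 4 * N : ℕ) : ℚ)) / Q := by
    field_simp
  rw [h4]
  have h5 : ((gc Q M p u v - 4 * N : ℕ) : ℚ) ≤ gc Q M p u v := by
    exact_mod_cast Nat.sub_le _ _
  have h6 : (gc Q M p u v : ℚ) ≤ ((gc Q M p u v - 4 * N : ℕ) : ℚ) + 4 * N := by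
    have : gc Q M p u v ≤ (gc Q M p u v - 4 * N) + 4 * N := by omega
    exact_mod_cast this
  constructor
  · apply div_nonneg _ hQ'.le
    linarith
  · apply div_le_div_of_nonneg_right _ hQ'.le
    linarith

theorem one_sum_near {N Q : ℕ} {M : ℕ → ℕ → ℕ → ℚ} {p u : ℕ} (hQ : 0 < Q) (hu : u < N)
    (h0 : ∀ v < N, 0 ≤ M p u v) (h1 : ∑ v ∈ range N, M p u v = 1) :
    ∑ v ∈ range N, |one Q (autc N Q M) p u v - M p u v| ≤ N * ((4 * N + 1) / Q) := by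
  calc ∑ v ∈ range N, |one Q (autc N Q M) p u v - M p u v|
      ≤ ∑ _v ∈ range N, ((4 * N + 1) / Q : ℚ) := by
        refine sum_le_sum fun v hv => ?_
        have h2 := one_near hQ hu (mem_range.1 hv) h0 h1
        rw [abs_sub_comm, abs_of_nonneg h2.1]
        exact h2.2
    _ = _ := by rw [sum_const, card_range, nsmul_eq_mul]

theorem one_mass {N Q : ℕ} {M : ℕ → ℕ → ℕ → ℚ} {p u : ℕ} (hQ : 0 < Q) (hu : u < N)
    (h0 : ∀ v < N, 0 ≤ M p u v) (h1 : ∑ v ∈ range N, M p u v = 1) :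
    one Q (autc N Q M) p u N ≤ N * ((4 * N + 1) / Q) := by
  have h2 := one_sum (T := autc N Q M) hQ (p := p) (u := u) (N := N) (fun x => autc_le _ _ _)
  rw [sum_range_succ] at h2
  have h3 : ∑ v ∈ range N, (M p u v - one Q (autc N Q M) p u v) ≤
      ∑ _v ∈ range N, ((4 * N + 1) / Q : ℚ) :=
    sum_le_sum fun v hv => (one_near hQ hu (mem_range.1 hv) h0 h1).2
  rw [sum_sub_distrib, h1, sum_const, card_range, nsmul_eq_mul] at h3
  linarith

theorem one_abs {N Q : ℕ} {M : ℕ → ℕ → ℕ → ℚ} {p v : ℕ} (hv : v < N) :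
    one Q (autc N Q M) p N v = 0 := by
  unfold one
  have : {x ∈ range Q | autc N Q M p N x = v} = ∅ := by
    apply filter_eq_empty_iff.2
    intro x _
    rw [autc_abs]
    omega
  rw [this]
  simp

end Vale.Agent.P313.MW
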