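import Vale.Agent.P313.H157.Br2

/-!
Module K1: one block.
-/

namespace Vale.Agent.P313.MW

open Finset

/-- The cell lengths of the computed matrix differ from the true ones by at most one. -/
theorem len_near {Q J m : ℕ} {M : ℕ → ℕ → ℕ → ℚ} {p u v : ℕ} (hQ : 0 < Q) (hJ : 1 ≤ J)
    (h0 : 0 ≤ M p u v) (h : |(m : ℚ) / (Q : ℚ) ^ J - M p u v| ≤ 1 / Q) :
    m / Q ^ (J - 1) ≤ gc Q M p u v + 1 ∧ gc Q M p u v ≤ m / Q ^ (J - 1) + 1 := by
  have hQ' : (0 : ℚ) < Q := by exact_mod_cast hQ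
  obtain ⟨j, rfl⟩ : ∃ j, J = j + 1 := ⟨J - 1, by omega⟩
  rw [Nat.add_sub_cancel]
  have hP : (0 : ℚ) < (Q : ℚ) ^ j := by positivity
  have hPn : 0 < Q ^ j := by positivity
  have h1 := abs_le.1 h
  have e1 : (m : ℚ) / (Q : ℚ) ^ (j + 1) * Q = m / (Q : ℚ) ^ j := by
    rw [pow_succ]; field_simp
  have e2 : (1 : ℚ) / Q * Q = 1 := by field_simp
  have h2 : (m : ℚ) / (Q : ℚ) ^ j ≤ Q * M p u v + 1 := by
    have := mul_le_mul_of_nonneg_right h1.2 hQ'.le
    rw [sub_mul, e1, e2] at this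
    linarith
  have h3 : (Q : ℚ) * M p u v ≤ (m : ℚ) / (Q : ℚ) ^ j + 1 := by
    have := mul_le_mul_of_nonneg_right h1.1 hQ'.le
    rw [sub_mul, e1, neg_mul, e2] at this
    linarith
  have h4 := gc_le (Q := Q) h0
  have h5 := lt_gc (Q := Q) (M := M) (p := p) (u := u) (v := v)
  have h6 : ((m / Q ^ j : ℕ) : ℚ) ≤ (m : ℚ) / (Q : ℚ) ^ j := by
    have := @Nat.cast_div_le ℚ _ _ _ m (Q ^ j)
    rwa [Nat.cast_pow] at this
  have h7 : (m : ℚ) / (Q : ℚ) ^ j < ((m / Q ^ j : ℕ) : ℚ) + 1 := by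
    rw [div_lt_iff₀ hP]
    have := Nat.lt_div_mul_add (a := m) hPn
    have h8 : m < (m / Q ^ j + 1) * Q ^ j := by rw [add_mul, one_mul]; exact this
    exact_mod_cast h8
  constructor
  · have h8 : ((m / Q ^ j : ℕ) : ℚ) < (gc Q M p u v : ℚ) + 2 := by linarith
    have h9 : m / Q ^ j < gc Q M p u v + 2 := by exact_mod_cast h8
    omega
  · have h8 : (gc Q M p u v : ℚ) < ((m / Q ^ j : ℕ) : ℚ) + 2 := by linarith
    have h9 : gc Q M p u v < m / Q ^ j + 2 := by exact_mod_cast h8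
    omega

/-- The rough approximations are near the products of the true matrices. -/
theorem cn_near {N Q n r C : ℕ} {al be : ℕ → ℕ} {M : ℕ → ℕ → ℕ → ℚ} {f : ℕ → ℕ → ℕ → ℕ} {e : ℚ}
    (hQ : 0 < Q) (hM : Stoch N n M)
    (hS : Sand N Q n (autc N Q M) (aut N f))
    (hC : ∀ i t, i + t ≤ n → ∀ u ≤ N,
      ∑ v ∈ range (N + 1), |(cw Q r al be (autc N Q M) C i t u v : ℚ) / Q -
        prq (N + 1) (one Q (autc N Q M)) i t u v| ≤ e)
    {i t : ℕ} (hit : i + t ≤ n) {u v : ℕ} (hu : u < N) (hv : v < N) :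
    |(cw Q r al be (aut N f) C i t u v : ℚ) / Q - prq N M i t u v| ≤
      2 * (e + n * (N * ((4 * N + 1) / Q))) := by
  have hQ' : (0 : ℚ) < Q := by exact_mod_cast hQ
  set κ : ℚ := N * ((4 * N + 1) / Q) with hκ
  have hκ0 : 0 ≤ κ := by rw [hκ]; positivity
  set A := one Q (autc N Q M) with hA
  have hA0 : ∀ p, ∀ u ≤ N, ∀ v ≤ N, 0 ≤ A p u v := fun p u _ v _ => one_nonneg
  have hA1 : ∀ p u, ∑ v ∈ range (N + 1), A p u v = 1 := fun p u =>
    one_sum hQ fun x => autc_le _ _ _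
  have ht : (t : ℚ) * κ ≤ n * κ := by
    apply mul_le_mul_of_nonneg_right _ hκ0
    exact_mod_cast (by omega : t ≤ n)
  -- the product of the matrices of the automaton
  have h1 : ∑ v ∈ range N, |prq (N + 1) A i t u v - prq N M i t u v| ≤ t * κ := by
    refine prq_near t (fun p _ _ => hA0 p) (fun p _ _ u _ => (hA1 p u).le)
      (fun p _ _ v hv => one_abs hv) (fun p _ h2 u hu v hv => (hM p (by omega) u hu).1 v hv)
      (fun p _ h2 u hu => (hM p (by omega) u hu).2.le) (fun p _ h2 u hu => ?_) u hu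
    exact one_sum_near hQ hu (hM p (by omega) u hu).1 (hM p (by omega) u hu).2
  have h2 : prq (N + 1) A i t u N ≤ t * κ := by
    refine prq_mass t (fun p _ _ => hA0 p) (fun p _ _ u _ => (hA1 p u).le)
      (fun p _ h2 u hu => ?_) hκ0 u hu
    exact one_mass hQ hu (hM p (by omega) u hu).1 (hM p (by omega) u hu).2
  have h3 := hC i t hit u hu.le
  have h4 : |prq (N + 1) A i t u v - prq N M i t u v| ≤ t * κ :=
    le_trans (single_le_sum (f := fun v => |prq (N + 1) A i t u v - prq N M i t u v|)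
      (fun _ _ => abs_nonneg _) (mem_range.2 hv)) h1
  have h5 : ∀ w ≤ N, |(cw Q r al be (autc N Q M) C i t u w : ℚ) / Q - prq (N + 1) A i t u w| ≤ e :=
    fun w hw => le_trans (single_le_sum
      (f := fun w => |(cw Q r al be (autc N Q M) C i t u w : ℚ) / Q - prq (N + 1) A i t u w|)
      (fun _ _ => abs_nonneg _) (mem_range.2 (Nat.lt_succ_of_le hw))) h3
  have h6 := abs_le.1 (h5 v hv.le)
  have h7 := abs_le.1 (h5 N le_rfl)
  have h8 := abs_le.1 h4
  have h9 : (cw Q r al be (autc N Q M) C i t u v : ℚ) / Q ≤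
      (cw Q r al be (aut N f) C i t u v : ℚ) / Q := by
    apply div_le_div_of_nonneg_right _ hQ'.le
    exact_mod_cast hS.cw_ge hQ hit hu.le hv
  have h10 : (cw Q r al be (aut N f) C i t u v : ℚ) / Q ≤
      (cw Q r al be (autc N Q M) C i t u v : ℚ) / Q +
        (cw Q r al be (autc N Q M) C i t u N : ℚ) / Q := by
    rw [← add_div]
    apply div_le_div_of_nonneg_right _ hQ'.le
    exact_mod_cast hS.cw_le hQ hit hu.le
  rw [abs_le]
  constructor <;> linarith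

/-- The final estimate. -/
theorem pass_aux {b c tau : ℕ} {Q P : ℕ} {x y pr : ℚ} (hQ : 0 < Q) (hP : 0 < P)
    (h1 : |(b : ℚ) / P / Q - pr| ≤ x) (h2 : |(c : ℚ) / Q - pr| ≤ y)
    (h3 : (Q : ℚ) * (x + y) + 1 ≤ tau) : b / P ≤ c + tau ∧ c ≤ b / P + tau := by
  have hQ' : (0 : ℚ) < Q := by exact_mod_cast hQ
  have hP' : (0 : ℚ) < P := by exact_mod_cast hP
  have h4 := abs_le.1 h1
  have h5 := abs_le.1 h2
  have h6 : ((b / P : ℕ) : ℚ) ≤ (b : ℚ) / P := Nat.cast_div_le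
  have h7 : (b : ℚ) / P < ((b / P : ℕ) : ℚ) + 1 := by
    rw [div_lt_iff₀ hP']
    have := Nat.lt_div_mul_add (a := b) hP
    have h8 : b < (b / P + 1) * P := by rw [add_mul, one_mul]; exact this
    exact_mod_cast h8
  have e1 : (b : ℚ) / P / Q * Q = b / P := by field_simp
  have e2 : (c : ℚ) / Q * Q = c := by field_simp
  have h8 : (b : ℚ) / P - c ≤ Q * (x + y) := by
    have : ((b : ℚ) / P / Q - c / Q) * Q ≤ (x + y) * Q :=
      mul_le_mul_of_nonneg_right (by linarith) hQ'.le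
    rw [sub_mul, e1, e2] at this
    linarith
  have h9 : (c : ℚ) - b / P ≤ Q * (x + y) := by
    have : ((c : ℚ) / Q - b / P / Q) * Q ≤ (x + y) * Q :=
      mul_le_mul_of_nonneg_right (by linarith) hQ'.le
    rw [sub_mul, e1, e2] at this
    linarith
  constructor
  · have : ((b / P : ℕ) : ℚ) ≤ ((c + tau : ℕ) : ℚ) := by
      rw [Nat.cast_add]; linarith
    exact_mod_cast this
  · have : (c : ℚ) ≤ ((b / P + tau : ℕ) : ℚ) := by
      rw [Nat.cast_add]; linarith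
    exact_mod_cast this

/-- Approximation of one more factor. -/
theorem bm_near {N n Q J : ℕ} {M : ℕ → ℕ → ℕ → ℚ} {mm : ℕ → ℕ → ℕ → ℕ}
    {cn : ℕ → ℕ → ℕ → ℕ → ℕ} {y : ℚ} (hQ : 0 < Q) (hM : Stoch N n M)
    (hm : ∀ p < n, ∀ u < N, ∀ v < N, |(mm p u v : ℚ) / (Q : ℚ) ^ J - M p u v| ≤ 1 / Q)
    {i j : ℕ} (hij : i < j) (hj : j ≤ n) {u v : ℕ} (hu : u < N) (hv : v < N)
    (hc : ∀ s < N, |(cn i (j - 1) u s : ℚ) / Q - prq N M i (j - 1 - i) u s| ≤ y) :
    |((Bm N cn mm i j u v : ℕ) : ℚ) / ((Q ^ J : ℕ) : ℚ) / Q - prq N M i (j - i) u v| ≤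
      N * y * (1 + 1 / Q) + 1 / Q := by
  have hQ' : (0 : ℚ) < Q := by exact_mod_cast hQ
  have hP : (0 : ℚ) < (Q : ℚ) ^ J := by positivity
  have hy : 0 ≤ y := le_trans (abs_nonneg _) (hc u hu)
  have e1 : j - i = (j - 1 - i) + 1 := by omega
  have e2 : i + (j - 1 - i) = j - 1 := by omega
  have hmj := hm (j - 1) (by omega)
  have hMj := hM (j - 1) (by omega)
  have e3 : prq N M i (j - i) u v = ∑ s ∈ range N, prq N M i (j - 1 - i) u s * M (j - 1) s v := by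
    rw [e1]
    show (∑ s ∈ range N, prq N M i (j - 1 - i) u s * M (i + (j - 1 - i)) s v) = _
    rw [e2]
  have e4 : ((Bm N cn mm i j u v : ℕ) : ℚ) / ((Q ^ J : ℕ) : ℚ) / Q =
      ∑ s ∈ range N, (cn i (j - 1) u s : ℚ) / Q * ((mm (j - 1) s v : ℚ) / (Q : ℚ) ^ J) := by
    unfold Bm
    rw [Nat.cast_sum, Nat.cast_pow, sum_div, sum_div]
    refine sum_congr rfl fun s _ => ?_
    rw [Nat.cast_mul]
    field_simp
  rw [e3, e4, ← sum_sub_distrib]
  have hp0 := prq_nonneg (m := M) (i := i) (j - 1 - i) (fun p _ h2 u hu v hv =>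
    (hM p (by omega) u hu).1 v hv) u hu
  have hp1 := prq_row_le (m := M) (i := i) (j - 1 - i) (fun p _ h2 u hu v hv =>
    (hM p (by omega) u hu).1 v hv) (fun p _ h2 u hu => (hM p (by omega) u hu).2.le) u hu
  have hM1 : ∀ s < N, M (j - 1) s v ≤ 1 := by
    intro s hs
    rw [← (hMj s hs).2]
    exact single_le_sum (f := fun v => M (j - 1) s v) (fun w hw => (hMj s hs).1 w (mem_range.1 hw))
      (mem_range.2 hv)
  refine le_trans (abs_sum_le_sum_abs _ _) ?_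
  calc ∑ s ∈ range N, |(cn i (j - 1) u s : ℚ) / Q * ((mm (j - 1) s v : ℚ) / (Q : ℚ) ^ J) -
        prq N M i (j - 1 - i) u s * M (j - 1) s v|
      ≤ ∑ s ∈ range N, (y * (1 + 1 / Q) + prq N M i (j - 1 - i) u s * (1 / Q)) := by
        refine sum_le_sum fun s hs => ?_
        have hs := mem_range.1 hs
        have h1 := hc s hs
        have h2 := hmj s hs v hv
        have h3 := hp0 s hs
        have h4 := hM1 s hs
        have h5 := abs_le.1 h2
        have h6 : (0 : ℚ) ≤ (mm (j - 1) s v : ℚ) / (Q : ℚ) ^ J := by positivity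
        calc |(cn i (j - 1) u s : ℚ) / Q * ((mm (j - 1) s v : ℚ) / (Q : ℚ) ^ J) -
              prq N M i (j - 1 - i) u s * M (j - 1) s v|
            = |((cn i (j - 1) u s : ℚ) / Q - prq N M i (j - 1 - i) u s) *
                ((mm (j - 1) s v : ℚ) / (Q : ℚ) ^ J) +
              prq N M i (j - 1 - i) u s *
                ((mm (j - 1) s v : ℚ) / (Q : ℚ) ^ J - M (j - 1) s v)| := by ring_nf
          _ ≤ |((cn i (j - 1) u s : ℚ) / Q - prq N M i (j - 1 - i) u s) *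
                ((mm (j - 1) s v : ℚ) / (Q : ℚ) ^ J)| +
              |prq N M i (j - 1 - i) u s *
                ((mm (j - 1) s v : ℚ) / (Q : ℚ) ^ J - M (j - 1) s v)| := abs_add_le _ _
          _ ≤ y * (1 + 1 / Q) + prq N M i (j - 1 - i) u s * (1 / Q) := by
            rw [abs_mul, abs_mul, abs_of_nonneg h6, abs_of_nonneg h3]
            apply add_le_add
            · apply mul_le_mul h1 (by linarith) h6 hy
            · exact mul_le_mul_of_nonneg_left h2 h3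
    _ = N * y * (1 + 1 / Q) + (∑ s ∈ range N, prq N M i (j - 1 - i) u s) * (1 / Q) := by
        rw [sum_add_distrib, sum_const, card_range, nsmul_eq_mul, sum_mul, mul_assoc]
    _ ≤ _ := by
        have h7 : (∑ s ∈ range N, prq N M i (j - 1 - i) u s) * (1 / Q) ≤ 1 * (1 / (Q : ℚ)) :=
          mul_le_mul_of_nonneg_right hp1 (by positivity)
        linarith

/-- The numerical estimate: `H = 2 ^ h`. -/
theorem k1_num {H Q N n tau : ℚ} (hH : 1024 ≤ H) (hQ : H ^ 40 ≤ Q) (hN : 1 ≤ N) (hNH : N ≤ H)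
    (hn : 0 ≤ n) (hnH : n ≤ H) (htau : Q / H ^ 6 - 1 ≤ tau) :
    Q * ((N * (2 * (2 / H ^ 8 + n * (N * ((4 * N + 1) / Q)))) * (1 + 1 / Q) + 1 / Q) +
      2 * (2 / H ^ 8 + n * (N * ((4 * N + 1) / Q)))) + 1 ≤ tau := by
  have hH0 : 0 < H := by linarith
  have hQ0 : 0 < Q := lt_of_lt_of_le (by positivity) hQ
  have hQ1 : 1 ≤ Q := le_trans (one_le_pow₀ (by linarith)) hQ
  -- the small term
  have h1 : n * (N * ((4 * N + 1) / Q)) ≤ 1 / H ^ 8 := by
    have e1 : n * (N * ((4 * N + 1) / Q)) = n * (N * (4 * N + 1)) / Q := by ring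
    rw [e1, div_le_div_iff₀ hQ0 (by positivity)]
    have h2 : n * (N * (4 * N + 1)) ≤ H * (H * (5 * H)) := by
      apply mul_le_mul hnH _ (by positivity) hH0.le
      apply mul_le_mul hNH (by linarith) (by positivity) hH0.le
    have h3 : H * (H * (5 * H)) * H ^ 8 ≤ H ^ 40 := by
      have h4 : H * (H * (5 * H)) * H ^ 8 = 5 * H ^ 11 := by ring
      have h5 : H ^ 40 = H ^ 28 * H * H ^ 11 := by ring
      rw [h4, h5]
      apply mul_le_mul_of_nonneg_right _ (by positivity)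
      have h6 : (1 : ℚ) ≤ H ^ 28 := one_le_pow₀ (by linarith)
      nlinarith
    calc n * (N * (4 * N + 1)) * H ^ 8 ≤ H * (H * (5 * H)) * H ^ 8 :=
          mul_le_mul_of_nonneg_right h2 (by positivity)
      _ ≤ Q := le_trans h3 hQ
      _ = 1 * Q := (one_mul Q).symm
  have h0 : 0 ≤ n * (N * ((4 * N + 1) / Q)) := by positivity
  set y : ℚ := 2 * (2 / H ^ 8 + n * (N * ((4 * N + 1) / Q))) with hy
  have hy1 : y ≤ 6 / H ^ 8 := by
    have e2 : (6 : ℚ) / H ^ 8 = 2 * (2 / H ^ 8 + 1 / H ^ 8) := by ring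
    rw [hy, e2]
    linarith
  have hy0 : 0 ≤ y := by rw [hy]; positivity
  have hNy : N * y * (1 + 1 / Q) ≤ 12 / H ^ 7 := by
    have h2 : (1 : ℚ) / Q ≤ 1 := by rw [div_le_one hQ0]; exact hQ1
    calc N * y * (1 + 1 / Q) ≤ H * (6 / H ^ 8) * 2 := by
          apply mul_le_mul (mul_le_mul hNH hy1 hy0 hH0.le) (by linarith) (by positivity)
            (by positivity)
      _ = 12 / H ^ 7 := by field_simp; ring
  have hy2 : y ≤ 1 / H ^ 7 := by
    refine le_trans hy1 ?_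
    rw [div_le_div_iff₀ (by positivity) (by positivity)]
    have : H ^ 8 = H * H ^ 7 := by ring
    rw [this]
    have h7 : (0 : ℚ) < H ^ 7 := by positivity
    nlinarith
  have h5 : Q * ((N * y * (1 + 1 / Q) + 1 / Q) + y) + 1 ≤ Q * (13 / H ^ 7) + 2 := by
    have e3 : Q * (1 / Q) = 1 := by field_simp
    have e4 : (13 : ℚ) / H ^ 7 = 12 / H ^ 7 + 1 / H ^ 7 := by ring
    calc Q * ((N * y * (1 + 1 / Q) + 1 / Q) + y) + 1
        = Q * (N * y * (1 + 1 / Q) + y) + Q * (1 / Q) + 1 := by ring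
      _ ≤ Q * (13 / H ^ 7) + 2 := by
        rw [e3, e4]
        have : Q * (N * y * (1 + 1 / Q) + y) ≤ Q * (12 / H ^ 7 + 1 / H ^ 7) :=
          mul_le_mul_of_nonneg_left (by linarith) hQ0.le
        linarith
  refine le_trans h5 (le_trans ?_ htau)
  -- `13 Q / H ^ 7 + 3 ≤ Q / H ^ 6`
  have h6 : Q / H ^ 6 = Q * (H / H ^ 7) := by field_simp
  have h7 : (3 : ℚ) ≤ Q * (1 / H ^ 7) := by
    rw [mul_one_div, le_div_iff₀ (by positivity)]
    have h8 : 3 * H ^ 7 ≤ H ^ 40 := by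
      have : H ^ 40 = H ^ 32 * H * H ^ 7 := by ring
      rw [this]
      apply mul_le_mul_of_nonneg_right _ (by positivity)
      have h6 : (1 : ℚ) ≤ H ^ 32 := one_le_pow₀ (by linarith)
      nlinarith
    linarith
  have h8 : Q * (H / H ^ 7) = Q * (1 / H ^ 7) * H := by ring
  have h9 : Q * (13 / H ^ 7) = Q * (1 / H ^ 7) * 13 := by ring
  rw [h6, h8, h9]
  nlinarith

/-- MODULE K1. -/
theorem modK1 : ModK1 := by
  intro π h al be mm M C hN hM hmm hC
  have hQ : 0 < π.Q := hN.Qp.pos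
  have hJ : 1 ≤ π.J := by rw [hN.J]; omega
  have hnH : π.n ≤ 2 ^ h := Nat.pow_le_pow_right (by norm_num) hN.sh
  have hS : Sand π.N π.Q π.n (autc π.N π.Q M)
      (aut π.N (fun p u v => mm p u v / π.Q ^ (π.J - 1))) := by
    apply sand
    intro p hp u hu v hv
    exact len_near hQ hJ ((hM p hp u hu).1 v hv) (hmm p hp u hu v hv)
  intro i j hij hj u hu v hv
  set y : ℚ := 2 * (2 / 2 ^ (8 * h) + (π.n : ℚ) * (π.N * ((4 * π.N + 1) / π.Q))) with hy
  have hc : ∀ i' j', i' ≤ j' → j' ≤ π.n → ∀ s < π.N,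
      |(π.cnC al be mm C i' j' u s : ℚ) / π.Q - prq π.N M i' (j' - i') u s| ≤ y := by
    intro i' j' hij' hj' s hs
    exact cn_near hQ hM hS hC (by omega) hu hs
  refine pass_aux (pr := prq π.N M i (j - i) u v) hQ (pow_pos hQ _)
    (bm_near hQ hM hmm hij hj hu hv (hc i (j - 1) (by omega) (by omega)))
    (hc i j hij.le hj v hv) ?_
  have hH : (1024 : ℚ) ≤ 2 ^ h := by
    have h1 : 2 ^ 10 ≤ 2 ^ h := Nat.pow_le_pow_right (by norm_num) hN.h10
    have h2 : ((2 ^ 10 : ℕ) : ℚ) ≤ ((2 ^ h : ℕ) : ℚ) := by exact_mod_cast h1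
    norm_num at h2
    exact h2
  have h8 : (2 : ℚ) ^ (8 * h) = (2 ^ h) ^ 8 := by rw [← pow_mul, mul_comm]
  have hQ1 : ((2 : ℚ) ^ h) ^ 40 ≤ π.Q := by
    rw [← pow_mul, mul_comm h 40]
    exact_mod_cast hN.Q1
  have htau : (π.Q : ℚ) / (2 ^ h) ^ 6 - 1 ≤ π.tau := by
    rw [hN.tau]
    have h1 : 0 < 2 ^ (6 * h) := by positivity
    have h2 := Nat.lt_div_mul_add (a := π.Q) h1
    have h3 : π.Q < (π.Q / 2 ^ (6 * h) + 1) * 2 ^ (6 * h) := by rw [add_mul, one_mul]; exact h2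
    have h4 : (π.Q : ℚ) < ((π.Q / 2 ^ (6 * h) : ℕ) + 1 : ℚ) * 2 ^ (6 * h) := by exact_mod_cast h3
    rw [← div_lt_iff₀ (by positivity)] at h4
    have h5 : (2 : ℚ) ^ (6 * h) = (2 ^ h) ^ 6 := by rw [← pow_mul, mul_comm]
    rw [h5] at h4
    linarith
  rw [hy, h8]
  exact k1_num hH hQ1 (by exact_mod_cast hN.N1) (by exact_mod_cast hN.Nh) (by positivity)
    (by exact_mod_cast hnH) htau

end Vale.Agent.P313.MW
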