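import Vale.Agent.P313.H157.V2b

/-!
Medium width: the last level of a stage; the second half of the closed forms of the recursion.
-/

namespace Vale.Agent.P313.MW.H157

open Finset

variable {π : Prm} {X : ℕ} {al be : ℕ → ℕ} {bs : ℕ → ℕ → ℕ}

theorem mod_dig {Q y J e : ℕ} (he : e ≤ J) : y % Q ^ (J + 1) / Q ^ e % Q = y / Q ^ e % Q := by
  apply digit_eq_of_mod
  exact Nat.mod_mod_of_dvd _ (pow_dvd_pow _ (by omega))

theorem mod_dig_zero {Q y J e : ℕ} (hQ : 0 < Q) (he : J < e) : y % Q ^ (J + 1) / Q ^ e % Q = 0 := by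
  have h1 : y % Q ^ (J + 1) < Q ^ e :=
    lt_of_lt_of_le (Nat.mod_lt _ (Nat.pow_pos hQ)) (Nat.pow_le_pow_right hQ he)
  rw [Nat.div_eq_of_lt h1, Nat.zero_mod]

theorem sbt_carry {Q a b : ℕ} (hQ : 0 < Q) (q : ℕ) :
    (∑ i ∈ range q, sbt Q a b i * Q ^ i) / Q ^ q < 2 := by
  rcases Nat.eq_zero_or_pos q with h0 | h0
  · subst h0; simp
  · have h1 := sbt_sum hQ a b q h0
    have h2 := Nat.mod_lt a (Nat.pow_pos hQ : 0 < Q ^ q)
    have h3 := Nat.zero_le (b % Q ^ q)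
    apply Nat.div_lt_of_lt_mul
    omega

section last

variable (hB : π.Big X) {m0 A : ℕ} (hm : m0 % π.LP = 0)

include hB hm

/-- The last level. -/
theorem lev_last {u v a b : ℕ} (hu : u < X) (hv : v < X)
    (hS : ∀ q < X, π.V X al be bs (m0 + 10 + 2 * π.D + 1) A (pk X [0, 0, 0, 0, u, v, q, 0]) =
      sbt π.Q a b q) (ha : a < π.Q ^ π.F) (hb : b < π.Q ^ π.F) {e : ℕ} (he : e < X) :
    π.V X al be bs (m0 + π.LP) A (pk X [0, 0, 0, 0, u, v, e, 0]) =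
      (a - b) / π.Q ^ (π.E - π.J) % π.Q ^ (π.J + 1) / π.Q ^ e % π.Q := by
  have hX : 0 < X := by have := hB.QX; omega
  have hQ : 0 < π.Q := by have := hB.Q2; omega
  have hQX := hB.QX
  have hFX := hB.FX
  have hLP : 11 + 2 * π.D < π.LP := by unfold Prm.LP; omega
  have hl : (m0 + 10 + 2 * π.D + 1) % π.LP = 11 + 2 * π.D := by
    rw [show m0 + 10 + 2 * π.D + 1 = m0 + (11 + 2 * π.D) by ring]; exact add_mod_LP hm hLP
  rw [show m0 + π.LP = m0 + 10 + 2 * π.D + 1 + 1 by unfold Prm.LP; ring,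
    Prm.V_succ hX hl hX hX hX hX hu hv he hX, out_last]
  set t := π.E - π.J + e with ht
  set G : ℕ → ℕ → ℕ := fun q s => (s % X ^ 4 + sbt π.Q a b q) / π.Q +
    X ^ 4 * (if q = t then (s % X ^ 4 + sbt π.Q a b q) % π.Q else s / X ^ 4) with hG
  have hX3 : 3 ≤ X := by have := hB.Q2; omega
  have hX4 : 2 < X ^ 4 := by
    calc 2 < X := by omega
      _ ≤ X ^ 4 := Nat.le_self_pow (by norm_num) X
  have hQ4 : π.Q + 1 ≤ X ^ 4 := by
    calc π.Q + 1 ≤ X := hQX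
      _ ≤ X ^ 4 := Nat.le_self_pow (by norm_num) X
  have hlast : ∀ q, nfold G 0 q = (∑ i ∈ range q, sbt π.Q a b i * π.Q ^ i) / π.Q ^ q +
        X ^ 4 * (if t < q then (∑ i ∈ range q, sbt π.Q a b i * π.Q ^ i) / π.Q ^ t % π.Q else 0) :=
    fun q => last_fold hQ (sbt π.Q a b) q (fun q' _ => lt_trans (sbt_carry hQ q') hX4)
  have hdl : ∀ q, (if t < q then (∑ i ∈ range q, sbt π.Q a b i * π.Q ^ i) / π.Q ^ t % π.Q
      else 0) ≤ π.Q := by
    intro q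
    split_ifs
    · exact (dig_lt hQ).le
    · exact Nat.zero_le _
  have hlt : ∀ q, nfold G 0 q < X ^ 8 := by
    intro q
    rw [hlast]
    have h1 := sbt_carry (a := a) (b := b) hQ q
    have h2 := Nat.mul_le_mul_left (X ^ 4) (hdl q)
    have h3 : X ^ 4 * π.Q + X ^ 4 ≤ X ^ 8 := by
      calc X ^ 4 * π.Q + X ^ 4 = X ^ 4 * (π.Q + 1) := by ring
        _ ≤ X ^ 4 * X ^ 4 := Nat.mul_le_mul_left _ hQ4
        _ = X ^ 8 := by ring
    omega
  have h5 : nfold (fun q s => π.updL X (11 + 2 * π.D) 0 0 0 u v e 0 q s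
      (π.V X al be bs (m0 + 10 + 2 * π.D + 1) (if 11 + 2 * π.D = 0 then A * π.n + 0 % π.n else A)
        (π.qryL X al be (11 + 2 * π.D) 0 0 0 0 u v e 0 q s)) % X ^ 8) 0 (X ^ 4) =
      nfold G 0 π.F := by
    refine nfold_stable (m := π.F) ?_ ?_ ?_
    · apply nfold_congr
      intro q hq
      simp only [upd_last, qry_last]
      rw [if_neg (show ¬ (11 + 2 * π.D = 0) by omega), if_pos hq, hS q (by omega)]
      exact Nat.mod_eq_of_lt (hlt (q + 1))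
    · calc π.F ≤ X := by omega
        _ ≤ X ^ 4 := Nat.le_self_pow (by norm_num) X
    · intro q hq _
      simp only [upd_last]
      rw [if_neg (by omega)]
      exact Nat.mod_eq_of_lt (hlt _)
  rw [h5, hlast]
  set s := ∑ i ∈ range π.F, sbt π.Q a b i * π.Q ^ i with hs
  have hc : s / π.Q ^ π.F < 2 := sbt_carry hQ _
  have h6 : ∀ y, (s / π.Q ^ π.F + X ^ 4 * y) % X ^ 4 = s / π.Q ^ π.F := by
    intro y
    rw [Nat.add_mul_mod_self_left, Nat.mod_eq_of_lt (by omega)]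
  have h7 : ∀ y, (s / π.Q ^ π.F + X ^ 4 * y) / X ^ 4 = y := by
    intro y
    rw [Nat.add_mul_div_left _ _ (by omega), Nat.div_eq_of_lt (by omega), zero_add]
  rw [h6, h7]
  have h2D : 0 < 2 ^ π.D := Nat.pow_pos (by norm_num)
  have hF0 : 0 < π.F := by unfold Prm.F; exact Nat.mul_pos (by omega) h2D
  have hEJ : π.J ≤ π.E := by
    unfold Prm.E
    calc π.J ≤ π.J + 1 := by omega
      _ ≤ (π.J + 1) * 2 ^ π.D := Nat.le_mul_of_pos_right _ h2D
  have hEF : π.E < π.F := by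
    unfold Prm.E Prm.F
    exact Nat.mul_lt_mul_of_pos_right (by omega) h2D
  have h8 := sbt_sum hQ a b π.F hF0
  rw [← hs, Nat.mod_eq_of_lt ha, Nat.mod_eq_of_lt hb] at h8
  have hXQ : π.Q < X ^ 8 := by
    calc π.Q < X := hQX
      _ ≤ X ^ 8 := Nat.le_self_pow (by norm_num) X
  rcases Nat.lt_or_ge a b with hab | hab
  · have h9 : s / π.Q ^ π.F = 0 := Nat.div_eq_of_lt (by omega)
    rw [h9, if_neg (by omega), show a - b = 0 by omega]
    simp
  · have h9 : s = (a - b) + π.Q ^ π.F := by omega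
    have h10 : s / π.Q ^ π.F = 1 := by
      rw [h9, Nat.add_div_right _ (Nat.pow_pos hQ), Nat.div_eq_of_lt (by omega)]
    rw [h10]
    by_cases heJ : e ≤ π.J
    · rw [if_pos ⟨le_rfl, heJ⟩, if_pos (by omega), mod_dig heJ, Nat.div_div_eq_div_mul, ← pow_add,
        ← ht]
      have h11 : s / π.Q ^ t % π.Q = (a - b) / π.Q ^ t % π.Q := by
        apply digit_eq_of_mod
        rw [h9, Nat.add_mod, Nat.dvd_iff_mod_eq_zero.1 (pow_dvd_pow π.Q (show t + 1 ≤ π.F by omega)),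
          add_zero, Nat.mod_mod]
      rw [h11]
      exact Nat.mod_eq_of_lt (lt_trans (dig_lt hQ) hXQ)
    · rw [if_neg (by omega), mod_dig_zero hQ (by omega), Nat.zero_mod]

end last

/-- SECOND HALF OF MODULE V: from the digits of the transfer matrix to the digits of the result of
a stage. -/
theorem modV2' (hB : π.Big X) {m0 A : ℕ} (hm : m0 % π.LP = 0) (Z : ℕ → ℕ → ℕ)
    (hb : ∀ w < π.W4, ∀ w' < π.W4, π.W4 * Z w w' < π.Q ^ (π.J + 4))
    (h10 : ∀ w < π.W4, ∀ w' < π.W4, ∀ e < X,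
      π.V X al be bs (m0 + 10) A (pk X [0, 0, 0, 0, w, w', e, 0]) = Z w w' / π.Q ^ e % π.Q) :
    ∀ u < π.N, ∀ v < π.N, ∀ e < X,
      π.V X al be bs (m0 + π.LP) A (pk X [0, 0, 0, 0, u, v, e, 0]) =
        (sqr π.W4 Z π.D (cod π.n 0 0 0 u) (cod π.n 1 0 π.n v) -
          sqr π.W4 Z π.D (cod π.n 0 0 0 u) (cod π.n 1 1 π.n v)) /
          π.Q ^ (π.E - π.J) % π.Q ^ (π.J + 1) / π.Q ^ e % π.Q := by
  intro u hu v hv e he
  have hQ : 0 < π.Q := by have := hB.Q2; omega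
  have hN := hB.N1
  have hW0 : 0 < π.W4 := by unfold Prm.W4; positivity
  have hW := hB.WX
  have hc0 : cod π.n 0 0 0 u < π.W4 := by
    unfold cod Prm.W4
    have h1 : (π.n + 1) * (u + 1) ≤ (π.n + 1) * π.N := Nat.mul_le_mul_left _ hu
    rw [mul_add, mul_one] at h1
    omega
  have hc1 : ∀ sg ≤ 1, cod π.n 1 sg π.n v < π.W4 := by
    intro sg hsg
    unfold cod Prm.W4
    have h1 : (π.n + 1) * (v + 1) ≤ (π.n + 1) * π.N := Nat.mul_le_mul_left _ hv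
    rw [mul_add, mul_one] at h1
    omega
  have hWN : π.N ≤ π.W4 := by
    unfold Prm.W4
    have h2 : π.N ≤ (π.n + 1) * π.N := Nat.le_mul_of_pos_left _ (Nat.succ_pos _)
    omega
  have hD : ∀ a < π.W4, ∀ b < π.W4, sqr π.W4 Z π.D a b < π.Q ^ π.F := by
    intro a ha b hb'
    have h1 := sqr_bd hW0 hb π.D a ha b hb'
    rw [← pow_mul] at h1
    exact lt_of_le_of_lt (Nat.le_mul_of_pos_left _ hW0) h1
  have h2 := lev_sqr hB hm h10 π.D le_rfl
  have h3 : ∀ q < X, π.V X al be bs (m0 + 10 + 2 * π.D + 1) A (pk X [0, 0, 0, 0, u, v, q, 0]) =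
      sbt π.Q (sqr π.W4 Z π.D (cod π.n 0 0 0 u) (cod π.n 1 0 π.n v))
        (sqr π.W4 Z π.D (cod π.n 0 0 0 u) (cod π.n 1 1 π.n v)) q :=
    fun q hq => lev_sub hB hm rfl h2 hu hv hq
  exact lev_last hB hm (by omega) (by omega) h3 (hD _ hc0 _ (hc1 0 (by omega)))
    (hD _ hc0 _ (hc1 1 le_rfl)) he

/-- The same for the transfer matrix of a stage. -/
theorem modV2 (hB : π.Big X) {m0 A : ℕ} (hm : m0 % π.LP = 0)
    (cn : ℕ → ℕ → ℕ → ℕ → ℕ) (mm : ℕ → ℕ → ℕ → ℕ)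
    (hb : ∀ w < π.W4, ∀ w' < π.W4,
      π.W4 * Xe π.N π.n π.Q π.J cn mm w w' < π.Q ^ (π.J + 4))
    (h10 : ∀ w < π.W4, ∀ w' < π.W4, ∀ e < X,
      π.V X al be bs (m0 + 10) A (pk X [0, 0, 0, 0, w, w', e, 0]) =
        Xe π.N π.n π.Q π.J cn mm w w' / π.Q ^ e % π.Q) :
    ∀ u < π.N, ∀ v < π.N, ∀ e < X,
      π.V X al be bs (m0 + π.LP) A (pk X [0, 0, 0, 0, u, v, e, 0]) =
        nx π.N π.n π.Q π.J π.D cn mm u v / π.Q ^ e % π.Q :=
  modV2' hB hm _ hb h10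

end Vale.Agent.P313.MW.H157
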