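import Vale.Agent.P313.H463.MW.Fold

/-!
Medium width: arithmetic of the squarings and of the last two levels of a stage.
-/

namespace Vale.Agent.P313.MW.H157

open Finset

theorem sqr_bd {W B : ℕ} {M : ℕ → ℕ → ℕ} (hW : 0 < W)
    (hb : ∀ a < W, ∀ b < W, W * M a b < B) :
    ∀ d, ∀ a < W, ∀ b < W, W * sqr W M d a b < B ^ 2 ^ d := by
  intro d
  induction d with
  | zero => intro a ha b hb'; simpa [sqr] using hb a ha b hb'
  | succ d ih =>
    intro a ha b hb'
    show W * ∑ w ∈ range W, sqr W M d a w * sqr W M d w b < _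
    have hB : 0 < B ^ 2 ^ d := lt_of_le_of_lt (Nat.zero_le _) (ih a ha b hb')
    have h1 : W * ∑ w ∈ range W, sqr W M d a w * sqr W M d w b ≤
        ∑ w ∈ range W, (B ^ 2 ^ d - 1) * sqr W M d w b := by
      rw [mul_sum]
      refine sum_le_sum fun w hw => ?_
      rw [mem_range] at hw
      rw [← mul_assoc]
      exact Nat.mul_le_mul_right _ (Nat.le_sub_one_of_lt (ih a ha w hw))
    have h2 : ∑ w ∈ range W, sqr W M d w b ≤ B ^ 2 ^ d - 1 := by
      have h3 : W * ∑ w ∈ range W, sqr W M d w b ≤ W * (B ^ 2 ^ d - 1) := by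
        rw [mul_sum]
        calc ∑ w ∈ range W, W * sqr W M d w b ≤ ∑ w ∈ range W, (B ^ 2 ^ d - 1) :=
              sum_le_sum fun w hw => Nat.le_sub_one_of_lt (ih w (mem_range.1 hw) b hb')
          _ = _ := by simp
      exact Nat.le_of_mul_le_mul_left h3 hW
    calc W * ∑ w ∈ range W, sqr W M d a w * sqr W M d w b
        ≤ (B ^ 2 ^ d - 1) * (B ^ 2 ^ d - 1) := by
          refine h1.trans ?_
          rw [← mul_sum]
          exact Nat.mul_le_mul_left _ h2
      _ < B ^ 2 ^ d * B ^ 2 ^ d := Nat.mul_lt_mul'' (by omega) (by omega)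
      _ = _ := by rw [← pow_add]; congr 1; rw [pow_succ]; ring

theorem sum_range_mul' (f : ℕ → ℕ) (a n : ℕ) :
    ∑ y ∈ range (a * n), f y = ∑ i ∈ range n, ∑ j ∈ range a, f (a * i + j) := by
  induction n with
  | zero => simp
  | succ n ih => rw [mul_add, mul_one, sum_range_add, ih, sum_range_succ]

theorem sum_lt_ite {W X : ℕ} (h : W ≤ X) (f : ℕ → ℕ) :
    ∑ x ∈ range X, (if x < W then f x else 0) = ∑ x ∈ range W, f x := by
  rw [← sum_filter]
  congr 1
  ext x
  simp only [mem_filter, mem_range]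
  omega

/-- The sum over one block of the convolution. -/
theorem block_sum {X W i e : ℕ} (hW : W ≤ X) (hi : i ≤ e) (he : e < X)
    (f : ℕ → ℕ → ℕ → ℕ) :
    ∑ y ∈ range (X ^ 2), (if (X ^ 2 * i + y) % X ≤ (X ^ 2 * i + y) / X ^ 2 ∧
        (X ^ 2 * i + y) / X % X < W ∧ (X ^ 2 * i + y) / X ^ 2 ≤ e then
      f ((X ^ 2 * i + y) % X) ((X ^ 2 * i + y) / X % X) ((X ^ 2 * i + y) / X ^ 2) else 0) =
      ∑ w ∈ range W, ∑ j ∈ range (i + 1), f j w i := by
  have hX : 0 < X := by omega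
  conv_lhs => rw [show range (X ^ 2) = range (X * X) by rw [sq]]
  rw [sum_range_mul', ← sum_lt_ite hW]
  refine sum_congr rfl fun w hw => ?_
  rw [mem_range] at hw
  have hk : ∀ j < X, (X ^ 2 * i + (X * w + j)) % X = j ∧ (X ^ 2 * i + (X * w + j)) / X % X = w ∧
      (X ^ 2 * i + (X * w + j)) / X ^ 2 = i := by
    intro j hj
    have e1 : X ^ 2 * i + (X * w + j) = X * (X * i + w) + j := by ring
    have e2 : (X * (X * i + w) + j) / X = X * i + w := by
      rw [Nat.mul_add_div hX, Nat.div_eq_of_lt hj, add_zero]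
    refine ⟨?_, ?_, ?_⟩
    · rw [e1, Nat.mul_add_mod, Nat.mod_eq_of_lt hj]
    · rw [e1, e2, Nat.mul_add_mod, Nat.mod_eq_of_lt hw]
    · rw [e1, sq, ← Nat.div_div_eq_div_mul, e2, Nat.mul_add_div hX, Nat.div_eq_of_lt hw, add_zero]
  by_cases h1 : w < W
  · rw [if_pos h1, ← sum_lt_ite (show i + 1 ≤ X by omega)]
    refine sum_congr rfl fun j hj => ?_
    rw [mem_range] at hj
    obtain ⟨k1, k2, k3⟩ := hk j hj
    rw [k1, k2, k3]
    by_cases h2 : j ≤ i
    · rw [if_pos ⟨h2, h1, hi⟩, if_pos (by omega)]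
    · rw [if_neg (fun h => h2 h.1), if_neg (by omega)]
  · rw [if_neg h1]
    refine sum_eq_zero fun j hj => ?_
    rw [mem_range] at hj
    obtain ⟨k1, k2, k3⟩ := hk j hj
    rw [k1, k2, k3, if_neg (fun h => h1 h.2.1)]

/-- Digit `e` of an entry of the product of two matrices, from the digits. -/
theorem mat_digit {Q W e : ℕ} (hQ : 0 < Q) (a b : ℕ → ℕ) :
    (∑ i ∈ range (e + 1), (∑ w ∈ range W, ∑ j ∈ range (i + 1),
      (a w / Q ^ j % Q) * (b w / Q ^ (i - j) % Q)) * Q ^ i) / Q ^ e % Q =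
    (∑ w ∈ range W, a w * b w) / Q ^ e % Q := by
  apply digit_eq_of_mod
  have h1 : ∑ i ∈ range (e + 1), (∑ w ∈ range W, ∑ j ∈ range (i + 1),
      (a w / Q ^ j % Q) * (b w / Q ^ (i - j) % Q)) * Q ^ i =
      ∑ w ∈ range W, ∑ i ∈ range (e + 1), (∑ j ∈ range (i + 1),
      (a w / Q ^ j % Q) * (b w / Q ^ (i - j) % Q)) * Q ^ i := by
    rw [sum_comm]
    refine sum_congr rfl fun i _ => ?_
    rw [sum_mul]
  rw [h1, Finset.sum_nat_mod, Finset.sum_nat_mod (range W) _ (fun w => a w * b w)]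
  congr 1
  refine sum_congr rfl fun w _ => ?_
  exact conv_mod hQ _ _ _

/-! ### Subtraction -/

/-- The summand number `q` of the subtraction. -/
def sbt (Q a b q : ℕ) : ℕ := a / Q ^ q % Q + (Q - 1 - b / Q ^ q % Q) + if q = 0 then 1 else 0

theorem sbt_lt {Q a b q : ℕ} (hQ : 0 < Q) : sbt Q a b q < 2 * Q := by
  unfold sbt
  have h1 := Nat.mod_lt (a / Q ^ q) hQ
  have h2 := Nat.mod_lt (b / Q ^ q) hQ
  split_ifs <;> omega

theorem sbt_sum {Q : ℕ} (hQ : 0 < Q) (a b q : ℕ) (hq : 0 < q) :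
    ∑ i ∈ range q, sbt Q a b i * Q ^ i + b % Q ^ q = a % Q ^ q + Q ^ q := by
  obtain ⟨q, rfl⟩ : ∃ q', q = q' + 1 := ⟨q - 1, by omega⟩
  clear hq
  induction q with
  | zero =>
    have h2 := Nat.mod_lt b hQ
    simp only [zero_add, sum_range_one, sbt, pow_zero, Nat.div_one, pow_one, if_true, mul_one]
    omega
  | succ q ih =>
    rw [sum_range_succ]
    have h1 : b % Q ^ (q + 1 + 1) = b % Q ^ (q + 1) + Q ^ (q + 1) * (b / Q ^ (q + 1) % Q) := by
      rw [Nat.mod_pow_succ]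
    have h2 : a % Q ^ (q + 1 + 1) = a % Q ^ (q + 1) + Q ^ (q + 1) * (a / Q ^ (q + 1) % Q) := by
      rw [Nat.mod_pow_succ]
    have h3 : sbt Q a b (q + 1) + b / Q ^ (q + 1) % Q + 1 = a / Q ^ (q + 1) % Q + Q := by
      have h4 := Nat.mod_lt (b / Q ^ (q + 1)) hQ
      unfold sbt
      rw [if_neg (by omega)]
      omega
    rw [h1, h2]
    have h5 : sbt Q a b (q + 1) * Q ^ (q + 1) + Q ^ (q + 1) * (b / Q ^ (q + 1) % Q) + Q ^ (q + 1) =
        Q ^ (q + 1) * (a / Q ^ (q + 1) % Q) + Q ^ (q + 1 + 1) := by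
      have h6 : (sbt Q a b (q + 1) + b / Q ^ (q + 1) % Q + 1) * Q ^ (q + 1) =
          (a / Q ^ (q + 1) % Q + Q) * Q ^ (q + 1) := by rw [h3]
      rw [pow_succ Q (q + 1)]
      linarith
    omega

/-- The fold with carries. -/
theorem carry_fold {Q : ℕ} (hQ : 0 < Q) (r : ℕ → ℕ) (q : ℕ) :
    nfold (fun q s => (s + r q) / Q) 0 q = (∑ i ∈ range q, r i * Q ^ i) / Q ^ q := by
  induction q with
  | zero => simp [nfold]
  | succ q ih =>
    show (nfold (fun q s => (s + r q) / Q) 0 q + r q) / Q = _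
    rw [ih, sum_range_succ, pow_succ, ← Nat.div_div_eq_div_mul, mul_comm (r q),
      Nat.add_mul_div_left _ _ (Nat.pow_pos hQ)]

/-- The digit which is seen during the fold is the digit of the whole sum. -/
theorem carry_digit {Q : ℕ} (hQ : 0 < Q) (r : ℕ → ℕ) {q F : ℕ} (hq : q < F) :
    ((∑ i ∈ range q, r i * Q ^ i) / Q ^ q + r q) % Q =
      (∑ i ∈ range F, r i * Q ^ i) / Q ^ q % Q := by
  have h1 : (∑ i ∈ range q, r i * Q ^ i) / Q ^ q + r q =
      (∑ i ∈ range (q + 1), r i * Q ^ i) / Q ^ q := by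
    rw [sum_range_succ, mul_comm (r q), Nat.add_mul_div_left _ _ (Nat.pow_pos hQ)]
  rw [h1]
  apply digit_eq_of_mod
  have h2 : ∑ i ∈ range F, r i * Q ^ i = ∑ i ∈ range (q + 1), r i * Q ^ i +
      ∑ i ∈ Ico (q + 1) F, r i * Q ^ i := (sum_range_add_sum_Ico _ (by omega)).symm
  have h3 : Q ^ (q + 1) ∣ ∑ i ∈ Ico (q + 1) F, r i * Q ^ i := by
    refine dvd_sum fun i hi => ?_
    rw [mem_Ico] at hi
    exact Dvd.dvd.mul_left (pow_dvd_pow _ hi.1) _
  rw [h2, Nat.add_mod, Nat.dvd_iff_mod_eq_zero.1 h3, add_zero, Nat.mod_mod]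

/-- The fold of the last level without clipping: low part and high part. -/
theorem last_fold {Q B t : ℕ} (hQ : 0 < Q) (r : ℕ → ℕ) (F : ℕ)
    (hB : ∀ q ≤ F, (∑ i ∈ range q, r i * Q ^ i) / Q ^ q < B) :
    nfold (fun q s => (s % B + r q) / Q + B * (if q = t then (s % B + r q) % Q else s / B)) 0 F =
      (∑ i ∈ range F, r i * Q ^ i) / Q ^ F +
        B * (if t < F then (∑ i ∈ range F, r i * Q ^ i) / Q ^ t % Q else 0) := by
  have key : ∀ q ≤ F,
      nfold (fun q s => (s % B + r q) / Q + B * (if q = t then (s % B + r q) % Q else s / B)) 0 q =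
      (∑ i ∈ range q, r i * Q ^ i) / Q ^ q +
        B * (if t < q then (∑ i ∈ range F, r i * Q ^ i) / Q ^ t % Q else 0) := by
    intro q
    induction q with
    | zero => intro _; simp [nfold]
    | succ q ih =>
      intro hq
      have hBp : 0 < B := lt_of_le_of_lt (Nat.zero_le _) (hB q (by omega))
      have h1 := ih (by omega)
      set s := nfold (fun q s => (s % B + r q) / Q +
        B * (if q = t then (s % B + r q) % Q else s / B)) 0 q with hs
      show (s % B + r q) / Q + B * (if q = t then (s % B + r q) % Q else s / B) = _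
      have h2 : s % B = (∑ i ∈ range q, r i * Q ^ i) / Q ^ q := by
        rw [h1, Nat.add_mul_mod_self_left, Nat.mod_eq_of_lt (hB q (by omega))]
      have h3 : s / B = if t < q then (∑ i ∈ range F, r i * Q ^ i) / Q ^ t % Q else 0 := by
        rw [h1, Nat.add_mul_div_left _ _ hBp, Nat.div_eq_of_lt (hB q (by omega)), zero_add]
      have h4 : ((∑ i ∈ range q, r i * Q ^ i) / Q ^ q + r q) / Q =
          (∑ i ∈ range (q + 1), r i * Q ^ i) / Q ^ (q + 1) := by
        rw [sum_range_succ, pow_succ, ← Nat.div_div_eq_div_mul, mul_comm (r q),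
          Nat.add_mul_div_left _ _ (Nat.pow_pos hQ)]
      rw [h2, h3, h4]
      congr 2
      by_cases h5 : q = t
      · subst h5
        rw [if_pos rfl, if_pos (Nat.lt_succ_self q), carry_digit hQ r (show q < F by omega)]
      · rw [if_neg h5]
        by_cases h6 : t < q
        · rw [if_pos h6, if_pos (by omega)]
        · rw [if_neg h6, if_neg (by omega)]
  exact key F le_rfl

end Vale.Agent.P313.MW.H157
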