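import Vale.Agent.P313.H157.V2a
import Vale.Agent.P313.H463.MW.MStmt

/-!
Medium width: the levels from `10` on (repeated squaring, subtraction), values of the recursion.
-/

namespace Vale.Agent.P313.MW.H157

open Finset

variable {π : Prm} {X : ℕ} {al be : ℕ → ℕ} {bs : ℕ → ℕ → ℕ}

section unfoldings

variable {d kd C i j u v e w q s r : ℕ}

theorem qry_prod (hd : d < π.D) :
    π.qryL X al be (10 + 2 * d) kd C i j u v e w q s =
      if q = 0 then pk X [0, 0, 0, 0, u, w, i, 0] else pk X [0, 0, 0, 0, w, v, j, 0] := by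
  unfold Prm.qryL
  rw [if_neg (by omega), if_neg (by omega), if_neg (by omega), if_neg (by omega),
    if_neg (by omega), if_neg (by omega), if_neg (by omega), if_neg (by omega),
    if_neg (by omega), if_neg (by omega), if_neg (by omega), if_neg (by omega),
    if_pos (by omega)]

theorem upd_prod (hd : d < π.D) :
    π.updL X (10 + 2 * d) kd i j u v e w q s r =
      if q = 0 then r else if q = 1 then s * r else s := by
  unfold Prm.updL
  rw [if_neg (by omega), if_neg (by omega), if_neg (by omega), if_neg (by omega),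
    if_neg (by omega), if_neg (by omega), if_neg (by omega), if_neg (by omega),
    if_neg (by omega), if_neg (by omega), if_neg (by omega), if_neg (by omega),
    if_pos (by omega)]

theorem out_prod (hd : d < π.D) : π.outL X (10 + 2 * d) kd u v e s = s := by
  unfold Prm.outL
  rw [if_neg (by omega), if_neg (by omega), if_neg (by omega), if_neg (by omega)]

theorem qry_conv (hd : d < π.D) :
    π.qryL X al be (11 + 2 * d) kd C i j u v e w q s =
      pk X [0, 0, q % X, q / X ^ 2 - q % X, u, v, 0, q / X % X] := by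
  unfold Prm.qryL
  rw [if_neg (by omega), if_neg (by omega), if_neg (by omega), if_neg (by omega),
    if_neg (by omega), if_neg (by omega), if_neg (by omega), if_neg (by omega),
    if_neg (by omega), if_neg (by omega), if_neg (by omega), if_neg (by omega),
    if_neg (by omega)]

theorem upd_conv (hd : d < π.D) :
    π.updL X (11 + 2 * d) kd i j u v e w q s r =
      bst (X ^ 2) π.Q e q
        (s + if q % X ≤ q / X ^ 2 ∧ q / X % X < π.W4 ∧ q / X ^ 2 ≤ e then r else 0) := by
  unfold Prm.updL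
  rw [if_neg (by omega), if_neg (by omega), if_neg (by omega), if_neg (by omega),
    if_neg (by omega), if_neg (by omega), if_neg (by omega), if_neg (by omega),
    if_neg (by omega), if_neg (by omega), if_neg (by omega), if_neg (by omega),
    if_neg (by omega)]

theorem out_conv (hd : d < π.D) : π.outL X (11 + 2 * d) kd u v e s = s := by
  unfold Prm.outL
  rw [if_neg (by omega), if_neg (by omega), if_neg (by omega), if_neg (by omega)]

theorem qry_sub : π.qryL X al be (10 + 2 * π.D) kd C i j u v e w q s =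
    pk X [0, 0, 0, 0, cod π.n 0 0 0 u, cod π.n 1 (if q = 0 then 0 else 1) π.n v, e, 0] := by
  unfold Prm.qryL
  rw [if_neg (by omega), if_neg (by omega), if_neg (by omega), if_neg (by omega),
    if_neg (by omega), if_neg (by omega), if_neg (by omega), if_neg (by omega),
    if_neg (by omega), if_neg (by omega), if_pos rfl]

theorem upd_sub : π.updL X (10 + 2 * π.D) kd i j u v e w q s r =
    if q = 0 then r else if q = 1 then s + (π.Q - 1 - r) + (if e = 0 then 1 else 0) else s := by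
  unfold Prm.updL
  rw [if_neg (by omega), if_neg (by omega), if_neg (by omega), if_neg (by omega),
    if_neg (by omega), if_neg (by omega), if_neg (by omega), if_neg (by omega),
    if_neg (by omega), if_neg (by omega), if_pos rfl]

theorem out_sub : π.outL X (10 + 2 * π.D) kd u v e s = s := by
  unfold Prm.outL
  rw [if_neg (by omega), if_neg (by omega), if_neg (by omega), if_neg (by omega)]

theorem qry_last : π.qryL X al be (11 + 2 * π.D) kd C i j u v e w q s =
    pk X [0, 0, 0, 0, u, v, q, 0] := by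
  unfold Prm.qryL
  rw [if_neg (by omega), if_neg (by omega), if_neg (by omega), if_neg (by omega),
    if_neg (by omega), if_neg (by omega), if_neg (by omega), if_neg (by omega),
    if_neg (by omega), if_neg (by omega), if_neg (by omega), if_pos rfl]

theorem upd_last : π.updL X (11 + 2 * π.D) kd i j u v e w q s r =
    if q < π.F then
      (s % X ^ 4 + r) / π.Q + X ^ 4 * (if q = π.E - π.J + e then (s % X ^ 4 + r) % π.Q
        else s / X ^ 4)
    else s := by
  unfold Prm.updL
  rw [if_neg (by omega), if_neg (by omega), if_neg (by omega), if_neg (by omega),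
    if_neg (by omega), if_neg (by omega), if_neg (by omega), if_neg (by omega),
    if_neg (by omega), if_neg (by omega), if_neg (by omega), if_pos rfl]

theorem out_last : π.outL X (11 + 2 * π.D) kd u v e s =
    if 1 ≤ s % X ^ 4 ∧ e ≤ π.J then s / X ^ 4 else 0 := by
  unfold Prm.outL
  rw [if_neg (by omega), if_neg (by omega), if_neg (by omega), if_pos rfl]

end unfoldings

theorem add_mod_LP {m0 l : ℕ} (hm : m0 % π.LP = 0) (hl : l < π.LP) : (m0 + l) % π.LP = l := by
  rw [Nat.add_mod, hm, zero_add, Nat.mod_mod, Nat.mod_eq_of_lt hl]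

theorem dig_lt {Q a e : ℕ} (hQ : 0 < Q) : a / Q ^ e % Q < Q := Nat.mod_lt _ hQ

section levels

variable (hB : π.Big X) {m0 A : ℕ} (hm : m0 % π.LP = 0) {S : ℕ → ℕ → ℕ}

include hB hm

/-- The level of the products of digits. -/
theorem lev_prod {d : ℕ} (hd : d < π.D)
    (hS : ∀ a < π.W4, ∀ b < π.W4, ∀ e < X,
      π.V X al be bs (m0 + 10 + 2 * d) A (pk X [0, 0, 0, 0, a, b, e, 0]) = S a b / π.Q ^ e % π.Q)
    {i j u v w : ℕ} (hi : i < X) (hj : j < X) (hu : u < π.W4) (hv : v < π.W4) (hw : w < π.W4) :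
    π.V X al be bs (m0 + 10 + 2 * d + 1) A (pk X [0, 0, i, j, u, v, 0, w]) =
      (S u w / π.Q ^ i % π.Q) * (S w v / π.Q ^ j % π.Q) := by
  have hX : 0 < X := by have := hB.QX; omega
  have hQ : 0 < π.Q := by have := hB.Q2; omega
  have hW := hB.WX
  have hLP : 10 + 2 * d < π.LP := by unfold Prm.LP; omega
  have hl : (m0 + 10 + 2 * d) % π.LP = 10 + 2 * d := by
    rw [add_assoc]; exact add_mod_LP hm hLP
  have h1 := dig_lt (a := S u w) (e := i) hQ
  have h2 := dig_lt (a := S w v) (e := j) hQ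
  have hQX : π.Q * π.Q < X ^ 8 := by
    have h3 : π.Q * π.Q < X * X := Nat.mul_lt_mul'' hB.QX hB.QX
    have h4 : X * X ≤ X ^ 8 := by
      rw [← sq]; exact Nat.pow_le_pow_right hX (by norm_num)
    omega
  have h3 : (S u w / π.Q ^ i % π.Q) * (S w v / π.Q ^ j % π.Q) < X ^ 8 :=
    lt_of_lt_of_le (Nat.mul_lt_mul'' h1 h2) hQX.le
  have h4 : S u w / π.Q ^ i % π.Q < X ^ 8 := by
    have : X ≤ X ^ 8 := Nat.le_self_pow (by norm_num) X
    have := hB.QX
    omega
  rw [Prm.V_succ hX hl hX hX hi hj (by omega) (by omega) hX (by omega), out_prod hd]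
  have h5 : nfold (fun q s => π.updL X (10 + 2 * d) 0 i j u v 0 w q s
      (π.V X al be bs (m0 + 10 + 2 * d) (if 10 + 2 * d = 0 then A * π.n + i % π.n else A)
        (π.qryL X al be (10 + 2 * d) 0 0 i j u v 0 w q s)) % X ^ 8) 0 (X ^ 4) =
      (S u w / π.Q ^ i % π.Q) * (S w v / π.Q ^ j % π.Q) := by
    refine two_fold (U := fun q s => π.updL X (10 + 2 * d) 0 i j u v 0 w q s
      (π.V X al be bs (m0 + 10 + 2 * d) (if 10 + 2 * d = 0 then A * π.n + i % π.n else A)
        (π.qryL X al be (10 + 2 * d) 0 0 i j u v 0 w q s)))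
      (a := S u w / π.Q ^ i % π.Q) ?_ ?_ h4 ?_ h3 ?_
    · have := hB.Q2
      have := hB.QX
      calc 2 ≤ X := by omega
        _ ≤ X ^ 4 := Nat.le_self_pow (by norm_num) X
    · simp only [upd_prod hd, qry_prod hd, if_true]
      rw [if_neg (by omega), hS u hu w hw i hi]
    · simp only [upd_prod hd, qry_prod hd, one_ne_zero, if_true, if_false]
      rw [if_neg (by omega), hS w hw v hv j hj]
    · intro q hq
      simp only [upd_prod hd]
      rw [if_neg (by omega), if_neg (by omega)]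
  rw [h5, Nat.mod_eq_of_lt h3]

/-- The level of the digits of the squares. -/
theorem lev_conv {d : ℕ} (hd : d < π.D)
    (hS : ∀ a < π.W4, ∀ b < π.W4, ∀ e < X,
      π.V X al be bs (m0 + 10 + 2 * d) A (pk X [0, 0, 0, 0, a, b, e, 0]) = S a b / π.Q ^ e % π.Q)
    {u v e : ℕ} (hu : u < π.W4) (hv : v < π.W4) (he : e < X) :
    π.V X al be bs (m0 + 10 + 2 * (d + 1)) A (pk X [0, 0, 0, 0, u, v, e, 0]) =
      (∑ w ∈ range π.W4, S u w * S w v) / π.Q ^ e % π.Q := by
  have hX : 0 < X := by have := hB.QX; omega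
  have hQ : 0 < π.Q := by have := hB.Q2; omega
  have hW := hB.WX
  have hLP : 11 + 2 * d < π.LP := by unfold Prm.LP; omega
  have hl : (m0 + 10 + 2 * d + 1) % π.LP = 11 + 2 * d := by
    rw [show m0 + 10 + 2 * d + 1 = m0 + (11 + 2 * d) by ring]; exact add_mod_LP hm hLP
  rw [show m0 + 10 + 2 * (d + 1) = m0 + 10 + 2 * d + 1 + 1 by ring,
    Prm.V_succ hX hl hX hX hX hX (by omega) (by omega) he hX, out_conv hd]
  set g : ℕ → ℕ := fun q => if q % X ≤ q / X ^ 2 ∧ q / X % X < π.W4 ∧ q / X ^ 2 ≤ e then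
    π.V X al be bs (m0 + 10 + 2 * d + 1) A
      (pk X [0, 0, q % X, q / X ^ 2 - q % X, u, v, 0, q / X % X]) else 0 with hg
  set f : ℕ → ℕ → ℕ → ℕ := fun j w i =>
    (S u w / π.Q ^ j % π.Q) * (S w v / π.Q ^ (i - j) % π.Q) with hf
  have hgf : ∀ q, g q = if q % X ≤ q / X ^ 2 ∧ q / X % X < π.W4 ∧ q / X ^ 2 ≤ e then
      f (q % X) (q / X % X) (q / X ^ 2) else 0 := by
    intro q
    simp only [hg, hf]
    split_ifs with h
    · exact lev_prod hB hm hd hS (Nat.mod_lt _ hX) (by omega) hu hv h.2.1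
    · rfl
  have hQX : π.Q * π.Q < X * X := Nat.mul_lt_mul'' hB.QX hB.QX
  have hfl : ∀ j w i, f j w i ≤ π.Q * π.Q := fun j w i =>
    Nat.mul_le_mul (dig_lt hQ).le (dig_lt hQ).le
  have h5 : nfold (fun q s => π.updL X (11 + 2 * d) 0 0 0 u v e 0 q s
      (π.V X al be bs (m0 + 10 + 2 * d + 1) (if 11 + 2 * d = 0 then A * π.n + 0 % π.n else A)
        (π.qryL X al be (11 + 2 * d) 0 0 0 0 u v e 0 q s)) % X ^ 8) 0 (X ^ 4) =
      nfold (fun q z => bst (X ^ 2) π.Q e q (z + g q) % X ^ 8) 0 (X ^ 2 * X ^ 2) := by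
    rw [← pow_add]
    apply nfold_congr
    intro q _
    simp only [upd_conv hd, qry_conv hd, hg]
    rw [if_neg (show ¬ (11 + 2 * d = 0) by omega)]
  have hX3 : 3 ≤ X := by have := hB.QX; have := hB.Q2; omega
  have h6 := conv_digit (Y := X ^ 2) (Q := π.Q) (e := e) (G0 := π.Q * π.Q) (P := X ^ 8)
    (m := X ^ 2) (Nat.pow_pos hX) hB.Q2 ?_ ?_ ?_ g ?_ ?_
  · rw [h5, h6]
    have h7 : ∑ i ∈ range (e + 1), (∑ y ∈ range (X ^ 2), g (X ^ 2 * i + y)) * π.Q ^ i =
        ∑ i ∈ range (e + 1), (∑ w ∈ range π.W4, ∑ j ∈ range (i + 1), f j w i) * π.Q ^ i := by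
      refine sum_congr rfl fun i hi => ?_
      rw [mem_range] at hi
      rw [← block_sum hW (show i ≤ e by omega) he f]
      congr 1
      exact sum_congr rfl fun y _ => hgf _
    rw [h7, mat_digit hQ (fun w => S u w) (fun w => S w v)]
    apply Nat.mod_eq_of_lt
    have h8 : X ≤ X ^ 8 := Nat.le_self_pow (by norm_num) X
    have h9 : (∑ w ∈ range π.W4, S u w * S w v) / π.Q ^ e % π.Q < π.Q := dig_lt hQ
    have := hB.QX
    omega
  · calc π.Q ≤ π.Q * π.Q := Nat.le_mul_self _
      _ ≤ X ^ 2 * (π.Q * π.Q) := Nat.le_mul_of_pos_left _ (Nat.pow_pos hX)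
  · have h8 : X ^ 2 * (π.Q * π.Q) < X ^ 2 * (X * X) :=
      Nat.mul_lt_mul_of_pos_left hQX (Nat.pow_pos hX)
    have h9 : 2 * (X ^ 2 * (X * X)) ≤ X ^ 8 := by
      have h10 : X ^ 8 = X ^ 4 * (X ^ 2 * (X * X)) := by ring
      rw [h10]
      apply Nat.mul_le_mul_right
      calc 2 ≤ X := by omega
        _ ≤ X ^ 4 := Nat.le_self_pow (by norm_num) X
    omega
  · calc e < X := he
      _ ≤ X ^ 2 := Nat.le_self_pow (by norm_num) X
  · intro q
    rw [hgf]
    split_ifs
    · exact hfl _ _ _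
    · exact Nat.zero_le _
  · intro q hq
    rw [hgf, if_neg]
    intro h
    omega

/-- The digits of the repeated squares. -/
theorem lev_sqr (hS : ∀ a < π.W4, ∀ b < π.W4, ∀ e < X,
      π.V X al be bs (m0 + 10) A (pk X [0, 0, 0, 0, a, b, e, 0]) = S a b / π.Q ^ e % π.Q) :
    ∀ d ≤ π.D, ∀ a < π.W4, ∀ b < π.W4, ∀ e < X,
      π.V X al be bs (m0 + 10 + 2 * d) A (pk X [0, 0, 0, 0, a, b, e, 0]) =
        sqr π.W4 S d a b / π.Q ^ e % π.Q := by
  intro d
  induction d with
  | zero => intro _ a ha b hb e he; exact hS a ha b hb e he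
  | succ d ih =>
    intro hd a ha b hb e he
    exact lev_conv hB hm (by omega) (ih (by omega)) ha hb he

/-- The level of the summands of the subtraction. -/
theorem lev_sub {n' : ℕ} (hn' : π.n = n')
    (hS : ∀ a < π.W4, ∀ b < π.W4, ∀ e < X,
      π.V X al be bs (m0 + 10 + 2 * π.D) A (pk X [0, 0, 0, 0, a, b, e, 0]) =
        S a b / π.Q ^ e % π.Q)
    {u v e : ℕ} (hu : u < π.N) (hv : v < π.N) (he : e < X) :
    π.V X al be bs (m0 + 10 + 2 * π.D + 1) A (pk X [0, 0, 0, 0, u, v, e, 0]) =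
      sbt π.Q (S (cod n' 0 0 0 u) (cod n' 1 0 n' v)) (S (cod n' 0 0 0 u) (cod n' 1 1 n' v)) e := by
  subst hn'
  have hX : 0 < X := by have := hB.QX; omega
  have hQ : 0 < π.Q := by have := hB.Q2; omega
  have hW := hB.WX
  have hQX := hB.QX
  have hLP : 10 + 2 * π.D < π.LP := by unfold Prm.LP; omega
  have hl : (m0 + 10 + 2 * π.D) % π.LP = 10 + 2 * π.D := by
    rw [add_assoc]; exact add_mod_LP hm hLP
  have hc0 : cod π.n 0 0 0 u < π.W4 := by
    unfold cod Prm.W4
    have h1 : (π.n + 1) * (u + 1) ≤ (π.n + 1) * π.N := Nat.mul_le_mul_left _ hu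
    rw [mul_add, mul_one] at h1
    omega
  have hc1 : ∀ sg ≤ 1, cod π.n 1 sg π.n v < π.W4 := by
    intro sg hsg
    unfold cod Prm.W4
    have h1 : (π.n + 1) * (v + 1) ≤ (π.n + 1) * π.N := Nat.mul_le_mul_left _ hv
    rw [mul_add, mul_one] at h1
    omega
  have huX : u < X := by
    have h1 : u ≤ cod π.n 0 0 0 u := by
      unfold cod
      have h2 : u ≤ (π.n + 1) * u := Nat.le_mul_of_pos_left _ (Nat.succ_pos _)
      omega
    omega
  have hvX : v < X := by
    have h1 : v ≤ cod π.n 1 0 π.n v := by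
      unfold cod
      have h2 : v ≤ (π.n + 1) * v := Nat.le_mul_of_pos_left _ (Nat.succ_pos _)
      omega
    have := hc1 0 (by omega)
    omega
  rw [Prm.V_succ hX hl hX hX hX hX huX hvX he hX, out_sub]
  set a := S (cod π.n 0 0 0 u) (cod π.n 1 0 π.n v) with ha
  set b := S (cod π.n 0 0 0 u) (cod π.n 1 1 π.n v) with hb
  have hX3 : 3 ≤ X := by have := hB.Q2; omega
  have hX8 : 2 * X ≤ X ^ 8 := by
    calc 2 * X ≤ X * X := Nat.mul_le_mul_right _ (by omega)
      _ = X ^ 2 := by ring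
      _ ≤ X ^ 8 := Nat.pow_le_pow_right hX (by norm_num)
  have h1 := dig_lt (a := a) (e := e) hQ
  have h2 : sbt π.Q a b e < 2 * π.Q := sbt_lt hQ
  have h5 : nfold (fun q s => π.updL X (10 + 2 * π.D) 0 0 0 u v e 0 q s
      (π.V X al be bs (m0 + 10 + 2 * π.D) (if 10 + 2 * π.D = 0 then A * π.n + 0 % π.n else A)
        (π.qryL X al be (10 + 2 * π.D) 0 0 0 0 u v e 0 q s)) % X ^ 8) 0 (X ^ 4) =
      sbt π.Q a b e := by
    refine two_fold (U := fun q s => π.updL X (10 + 2 * π.D) 0 0 0 u v e 0 q s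
      (π.V X al be bs (m0 + 10 + 2 * π.D) (if 10 + 2 * π.D = 0 then A * π.n + 0 % π.n else A)
        (π.qryL X al be (10 + 2 * π.D) 0 0 0 0 u v e 0 q s)))
      (a := a / π.Q ^ e % π.Q) ?_ ?_ (by omega) ?_ (by omega) ?_
    · calc 2 ≤ X := by omega
        _ ≤ X ^ 4 := Nat.le_self_pow (by norm_num) X
    · simp only [upd_sub, qry_sub, if_true]
      rw [if_neg (by omega), hS _ hc0 _ (hc1 0 (by omega)) e he]
    · simp only [upd_sub, qry_sub, one_ne_zero, if_true, if_false]
      rw [if_neg (by omega), hS _ hc0 _ (hc1 1 le_rfl) e he]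
      rfl
    · intro q hq
      simp only [upd_sub]
      rw [if_neg (by omega), if_neg (by omega)]
  rw [h5, Nat.mod_eq_of_lt (by omega)]

end levels

end Vale.Agent.P313.MW.H157
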