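import Vale.Agent.P313.H157.V2
import Vale.Agent.P313.H463.MW.VFin

/-!
Medium width: module V.
-/

namespace Vale.Agent.P313.MW.H157

theorem modV2s : ModV2 := fun _ _ _ _ _ Z _ _ hB hm hb h10 => modV2' hB hm Z hb h10

/-- MODULE V. -/
theorem modV : ModV := modV_of modV2s

end Vale.Agent.P313.MW.H157

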